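import Mathlib
import Vale.Agent.P136.Full.Defs

/-!
# P136: the algebra of amplitudes
-/

open MeasureTheory
open scoped Topology ContDiff ComplexConjugate

namespace Vale.Agent.P136.Full.Solve

noncomputable section

/-- Componentwise conjugation. -/
def cj (a : Amp) : Amp := (fun i => conj (a.1 i), conj a.2)

/-- The real inner product. -/
def rdot (a b : Amp) : ℝ := (dot4 (cj a) b).re

/-- The coordinate vectors of the vector component. -/
def e1 (j : Fin 3) : Amp := (Pi.single j 1, 0)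

/-- The coordinate vector of the scalar component. -/
def e2 : Amp := (0, 1)

theorem cj_cj (a : Amp) : cj (cj a) = a := by
  ext <;> simp [cj]

theorem cj_sub (a b : Amp) : cj (a - b) = cj a - cj b := by
  ext <;> simp [cj]

theorem ampSqr_cj (a : Amp) : ampSqr (cj a) = ampSqr a := by
  simp [ampSqr, cj]

theorem ampSqr_eq_rdot (a : Amp) : ampSqr a = rdot a a := by
  simp [ampSqr, rdot, dot4, bdot, cj, ← Complex.normSq_eq_norm_sq, Complex.normSq_apply,
    Complex.add_re, Complex.mul_re]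

theorem rdot_comm (a b : Amp) : rdot a b = rdot b a := by
  simp [rdot, dot4, bdot, cj, Fin.sum_univ_three, Complex.mul_re]; ring

theorem rdot_add_right (a b c : Amp) : rdot a (b + c) = rdot a b + rdot a c := by
  simp [rdot, dot4, bdot, cj, Fin.sum_univ_three, Complex.mul_re]; ring

theorem rdot_sub_right (a b c : Amp) : rdot a (b - c) = rdot a b - rdot a c := by
  simp [rdot, dot4, bdot, cj, Fin.sum_univ_three, Complex.mul_re]; ring

theorem rdot_smul_right (t : ℝ) (a b : Amp) : rdot a ((t : ℂ) • b) = t * rdot a b := by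
  simp [rdot, dot4, bdot, cj, Fin.sum_univ_three, Complex.mul_re]; ring

theorem ampSqr_add (a b : Amp) : ampSqr (a + b) = ampSqr a + 2 * rdot a b + ampSqr b := by
  simp [ampSqr, rdot, dot4, bdot, cj, ← Complex.normSq_eq_norm_sq, Complex.normSq_apply,
    Fin.sum_univ_three, Complex.mul_re]; ring

theorem ampSqr_smul (c : ℂ) (a : Amp) : ampSqr (c • a) = ‖c‖ ^ 2 * ampSqr a := by
  simp [ampSqr, mul_pow, Finset.mul_sum, mul_add]

theorem ampSqr_zero : ampSqr 0 = 0 := by simp [ampSqr]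

theorem ampSqr_neg (a : Amp) : ampSqr (-a) = ampSqr a := by simp [ampSqr]

theorem ampSqr_nonneg (a : Amp) : 0 ≤ ampSqr a :=
  add_nonneg (Finset.sum_nonneg fun _ _ => sq_nonneg _) (sq_nonneg _)

theorem norm_sq_le_ampSqr (a : Amp) : ‖a‖ ^ 2 ≤ ampSqr a := by
  have h : ‖a‖ ≤ Real.sqrt (ampSqr a) := by
    refine max_le ((pi_norm_le_iff_of_nonneg (Real.sqrt_nonneg _)).2 fun i => ?_) ?_
    · refine Real.le_sqrt_of_sq_le ((Finset.single_le_sum (f := fun i => ‖a.1 i‖ ^ 2)
        (fun j _ => sq_nonneg _) (Finset.mem_univ i)).trans (le_add_of_nonneg_right (sq_nonneg _)))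
    · exact Real.le_sqrt_of_sq_le
        (le_add_of_nonneg_left (Finset.sum_nonneg fun _ _ => sq_nonneg _))
  calc ‖a‖ ^ 2 ≤ Real.sqrt (ampSqr a) ^ 2 := pow_le_pow_left₀ (norm_nonneg _) h 2
    _ = ampSqr a := Real.sq_sqrt (ampSqr_nonneg a)

theorem ampSqr_le (a : Amp) : ampSqr a ≤ 4 * ‖a‖ ^ 2 := by
  have h1 : ∀ i, ‖a.1 i‖ ^ 2 ≤ ‖a‖ ^ 2 := fun i =>
    pow_le_pow_left₀ (norm_nonneg _) ((norm_le_pi_norm a.1 i).trans (norm_fst_le a)) 2
  have h2 : ‖a.2‖ ^ 2 ≤ ‖a‖ ^ 2 := pow_le_pow_left₀ (norm_nonneg _) (norm_snd_le a) 2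
  simp only [ampSqr, Fin.sum_univ_three]
  linarith [h1 0, h1 1, h1 2]

theorem ampSqr_add_le (a b : Amp) : ampSqr (a + b) ≤ 2 * ampSqr a + 2 * ampSqr b := by
  have h := ampSqr_add a b
  have h' := ampSqr_add a (-b)
  have hr : rdot a (-b) = -rdot a b := by
    simp [rdot, dot4, bdot, cj, Fin.sum_univ_three, Complex.mul_re]; ring
  rw [hr, ampSqr_neg] at h'
  linarith [ampSqr_nonneg (a + -b)]

theorem abs_rdot_le (a b : Amp) (s : ℝ) (hs : 0 < s) :
    |rdot a b| ≤ (s * ampSqr a + ampSqr b / s) / 2 := by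
  have key : ∀ c : ℝ, 0 ≤ c ^ 2 * ampSqr a + 2 * c * rdot a b + ampSqr b := by
    intro c
    have h := ampSqr_add ((c : ℂ) • a) b
    rw [ampSqr_smul, Complex.norm_real, Real.norm_eq_abs, sq_abs, rdot_comm, rdot_smul_right,
      rdot_comm] at h
    linarith [ampSqr_nonneg ((c : ℂ) • a + b)]
  have h1 := key s
  have h2 := key (-s)
  have hb : ampSqr b / s * s = ampSqr b := div_mul_cancel₀ _ hs.ne'
  rw [abs_le]
  constructor <;> nlinarith

theorem amp_expand (u : Amp) : u = (∑ j, u.1 j • e1 j) + u.2 • e2 := by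
  refine Prod.ext ?_ ?_
  · funext i
    fin_cases i <;> simp [e1, e2, Fin.sum_univ_three]
  · simp [e1, e2, Fin.sum_univ_three]

theorem clm_expand (B : Amp →L[ℂ] Amp) (u : Amp) :
    B u = (∑ j, u.1 j • B (e1 j)) + u.2 • B e2 := by
  conv_lhs => rw [amp_expand u]
  simp

theorem dot4_sum_left (u : Amp) (V : Fin 3 → Amp) (W v : Amp) :
    dot4 ((∑ j, u.1 j • V j) + u.2 • W) v =
      (∑ j, u.1 j * dot4 (V j) v) + u.2 * dot4 W v := by
  simp [dot4, bdot, Fin.sum_univ_three]; ring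

theorem dot4_add_left (a b c : Amp) : dot4 (a + b) c = dot4 a c + dot4 b c := by
  simp [dot4, bdot, Fin.sum_univ_three]; ring

theorem dot4_add_right (a b c : Amp) : dot4 a (b + c) = dot4 a b + dot4 a c := by
  simp [dot4, bdot, Fin.sum_univ_three]; ring

theorem dot4_sub_left (a b c : Amp) : dot4 (a - b) c = dot4 a c - dot4 b c := by
  simp [dot4, bdot, Fin.sum_univ_three]; ring

theorem dot4_sub_right (a b c : Amp) : dot4 a (b - c) = dot4 a b - dot4 a c := by
  simp [dot4, bdot, Fin.sum_univ_three]; ring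

theorem dot4_neg_right (a b : Amp) : dot4 a (-b) = -dot4 a b := by
  simp [dot4, bdot, Fin.sum_univ_three]; ring

theorem dot4_smul_left (c : ℂ) (a b : Amp) : dot4 (c • a) b = c * dot4 a b := by
  simp [dot4, bdot, Fin.sum_univ_three]; ring

theorem dot4_smul_right (c : ℂ) (a b : Amp) : dot4 a (c • b) = c * dot4 a b := by
  simp [dot4, bdot, Fin.sum_univ_three]; ring

/-- The transpose of a linear map for the bilinear pairing. -/
def tr (B : Amp →L[ℂ] Amp) : Amp →L[ℂ] Amp :=
  LinearMap.toContinuousLinearMap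
    { toFun := fun v => ((fun j => dot4 (B (e1 j)) v), dot4 (B e2) v)
      map_add' := fun v w => by
        ext <;> simp [dot4, bdot, Fin.sum_univ_three] <;> ring
      map_smul' := fun c v => by
        ext <;> simp [dot4, bdot, Fin.sum_univ_three] <;> ring }

theorem tr_apply (B : Amp →L[ℂ] Amp) (v : Amp) :
    tr B v = ((fun j => dot4 (B (e1 j)) v), dot4 (B e2) v) := rfl

theorem dot4_tr (B : Amp →L[ℂ] Amp) (u v : Amp) : dot4 (B u) v = dot4 u (tr B v) := by
  rw [clm_expand B u, dot4_sum_left]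
  rfl

end

end Vale.Agent.P136.Full.Solve
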