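import Mathlib
import Vale.Agent.P136.Full.Defs
import Vale.Agent.P136.Full.Solve.Amp

/-!
# P136: calculus of partial derivatives of amplitude fields
-/

open MeasureTheory
open scoped Topology ContDiff ComplexConjugate

namespace Vale.Agent.P136.Full.Solve

noncomputable section

variable {E F : Type*} [NormedAddCommGroup E] [NormedSpace ℂ E] [NormedAddCommGroup F]
  [NormedSpace ℂ F]

theorem contDiff_pd {f : Space → E} (hf : ContDiff ℝ ∞ f) (i : Fin 3) : ContDiff ℝ ∞ (pd i f) :=
  (hf.fderiv_right (m := ∞) (by simp)).clm_apply contDiff_const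

theorem continuous_pd {f : Space → E} (hf : ContDiff ℝ ∞ f) (i : Fin 3) : Continuous (pd i f) :=
  (contDiff_pd hf i).continuous

theorem smooth_diff {f : Space → E} (hf : ContDiff ℝ ∞ f) : Differentiable ℝ f :=
  hf.differentiable (by simp)

theorem pd_add {f g : Space → E} (hf : Differentiable ℝ f) (hg : Differentiable ℝ g) (i : Fin 3)
    (x : Space) : pd i (fun y => f y + g y) x = pd i f x + pd i g x := by
  simp [pd, fderiv_fun_add (hf x) (hg x)]

theorem pd_sub {f g : Space → E} (hf : Differentiable ℝ f) (hg : Differentiable ℝ g) (i : Fin 3)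
    (x : Space) : pd i (fun y => f y - g y) x = pd i f x - pd i g x := by
  simp [pd, fderiv_fun_sub (hf x) (hg x)]

theorem pd_sum {ι : Type*} (s : Finset ι) {f : ι → Space → E}
    (hf : ∀ j ∈ s, Differentiable ℝ (f j)) (i : Fin 3) (x : Space) :
    pd i (fun y => ∑ j ∈ s, f j y) x = ∑ j ∈ s, pd i (f j) x := by
  simp [pd, fderiv_fun_sum (fun j hj => hf j hj x)]

theorem pd_clm (L : E →L[ℝ] F) {f : Space → E} (hf : Differentiable ℝ f) (i : Fin 3) (x : Space) :
    pd i (fun y => L (f y)) x = L (pd i f x) := by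
  show fderiv ℝ (L ∘ f) x _ = _
  rw [fderiv_comp x L.differentiableAt (hf x), L.fderiv]
  rfl

theorem pd_smul {c : Space → ℂ} {f : Space → E} (hc : Differentiable ℝ c) (hf : Differentiable ℝ f)
    (i : Fin 3) (x : Space) :
    pd i (fun y => c y • f y) x = c x • pd i f x + pd i c x • f x := by
  simp [pd, fderiv_fun_smul (hc x) (hf x)]

theorem pd_const_smul (c : ℂ) {f : Space → E} (hf : Differentiable ℝ f) (i : Fin 3) (x : Space) :
    pd i (fun y => c • f y) x = c • pd i f x := by
  simp [pd, fderiv_fun_const_smul (hf x) c]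

theorem pd_mul {c f : Space → ℂ} (hc : Differentiable ℝ c) (hf : Differentiable ℝ f) (i : Fin 3)
    (x : Space) : pd i (fun y => c y * f y) x = c x * pd i f x + pd i c x * f x :=
  pd_smul hc hf i x

theorem pd_const (c : E) (i : Fin 3) (x : Space) : pd i (fun _ => c) x = 0 := by
  simp [pd]

theorem pd_eq_zero_of_eventually {f : Space → E} (i : Fin 3) {x : Space}
    (h : f =ᶠ[𝓝 x] fun _ => 0) : pd i f x = 0 := by
  simp [pd, h.fderiv_eq]

theorem pd_eq_zero_outside {f : Space → E} {R : ℝ} (h : ∀ x, R < ‖x‖ → f x = 0) (i : Fin 3)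
    {x : Space} (hx : R < ‖x‖) : pd i f x = 0 := by
  refine pd_eq_zero_of_eventually i ?_
  filter_upwards [(isOpen_lt continuous_const continuous_norm).mem_nhds hx] with y hy using h y hy

theorem hasCompactSupport_of_bound {G : Type*} [Zero G] {f : Space → G} {R : ℝ}
    (h : ∀ x, R < ‖x‖ → f x = 0) : HasCompactSupport f :=
  HasCompactSupport.intro (isCompact_closedBall (0 : Space) R) fun x hx => h x (by simpa using hx)

/-- The integral of a partial derivative of a compactly supported field vanishes. -/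
theorem integral_pd [CompleteSpace E] {f : Space → E} (hf : ContDiff ℝ 1 f)
    (hs : HasCompactSupport f) (i : Fin 3) : ∫ x, pd i f x = 0 := by
  have h := integral_smul_fderiv_eq_neg_fderiv_smul_of_integrable (μ := volume) (𝕜 := ℝ)
    (f := fun _ : Space => (1 : ℝ)) (g := f) (v := Pi.single i 1) (by simp) ?_ ?_ ?_ ?_
  · simpa [pd] using h
  · simp only [one_smul]
    exact ((hf.continuous_fderiv one_ne_zero).clm_apply continuous_const).integrable_of_hasCompactSupport
      (hs.fderiv_apply ℝ _)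
  · simp only [one_smul]
    exact hf.continuous.integrable_of_hasCompactSupport hs
  · exact fun x _ => differentiableAt_const _
  · exact fun x _ => (hf.differentiable one_ne_zero) x

/-- Projection onto the vector component. -/
def fstR : Amp →L[ℝ] C3 := (ContinuousLinearMap.fst ℂ C3 ℂ).restrictScalars ℝ

/-- Projection onto the scalar component. -/
def sndR : Amp →L[ℝ] ℂ := (ContinuousLinearMap.snd ℂ C3 ℂ).restrictScalars ℝ

/-- A coordinate projection. -/
def projR (j : Fin 3) : C3 →L[ℝ] ℂ :=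
  (ContinuousLinearMap.proj (R := ℂ) (φ := fun _ : Fin 3 => ℂ) j).restrictScalars ℝ

theorem pd_fst {u : Space → Amp} (hu : Differentiable ℝ u) (i : Fin 3) (x : Space) :
    pd i (fun y => (u y).1) x = (pd i u x).1 := pd_clm fstR hu i x

theorem pd_snd {u : Space → Amp} (hu : Differentiable ℝ u) (i : Fin 3) (x : Space) :
    pd i (fun y => (u y).2) x = (pd i u x).2 := pd_clm sndR hu i x

theorem pd_coord {u : Space → C3} (hu : Differentiable ℝ u) (i j : Fin 3) (x : Space) :
    pd i (fun y => u y j) x = pd i u x j := pd_clm (projR j) hu i x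

theorem contDiff_fst {u : Space → Amp} (hu : ContDiff ℝ ∞ u) :
    ContDiff ℝ ∞ fun x => (u x).1 := fstR.contDiff.comp hu

theorem contDiff_snd {u : Space → Amp} (hu : ContDiff ℝ ∞ u) :
    ContDiff ℝ ∞ fun x => (u x).2 := sndR.contDiff.comp hu

theorem contDiff_coord {u : Space → C3} (hu : ContDiff ℝ ∞ u) (j : Fin 3) :
    ContDiff ℝ ∞ fun x => u x j := (projR j).contDiff.comp hu

theorem contDiff_coord1 {u : Space → Amp} (hu : ContDiff ℝ ∞ u) (j : Fin 3) :
    ContDiff ℝ ∞ fun x => (u x).1 j := contDiff_coord (contDiff_fst hu) j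

theorem contDiff_dot4 {u v : Space → Amp} (hu : ContDiff ℝ ∞ u) (hv : ContDiff ℝ ∞ v) :
    ContDiff ℝ ∞ fun x => dot4 (u x) (v x) := by
  unfold dot4 bdot
  exact (ContDiff.sum fun i _ => (contDiff_coord1 hu i).mul (contDiff_coord1 hv i)).add
    ((contDiff_snd hu).mul (contDiff_snd hv))

theorem pd_dot4 {u v : Space → Amp} (hu : ContDiff ℝ ∞ u) (hv : ContDiff ℝ ∞ v) (i : Fin 3)
    (x : Space) :
    pd i (fun y => dot4 (u y) (v y)) x = dot4 (pd i u x) (v x) + dot4 (u x) (pd i v x) := by
  have h1 : ∀ j, Differentiable ℝ fun y => (u y).1 j := fun j => smooth_diff (contDiff_coord1 hu j)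
  have h2 : ∀ j, Differentiable ℝ fun y => (v y).1 j := fun j => smooth_diff (contDiff_coord1 hv j)
  unfold dot4 bdot
  have h3 : ∀ j, Differentiable ℝ fun y => (u y).1 j * (v y).1 j := fun j => (h1 j).mul (h2 j)
  have h4 : Differentiable ℝ fun y => (u y).2 * (v y).2 :=
    (smooth_diff (contDiff_snd hu)).mul (smooth_diff (contDiff_snd hv))
  rw [pd_add (Differentiable.fun_sum fun j _ => h3 j) h4, pd_sum Finset.univ fun j _ => h3 j]
  simp only [pd_mul (h1 _) (h2 _), pd_mul (smooth_diff (contDiff_snd hu)) (smooth_diff (contDiff_snd hv)),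
    pd_snd (smooth_diff hu), pd_snd (smooth_diff hv),
    pd_coord (smooth_diff (contDiff_fst hu)), pd_coord (smooth_diff (contDiff_fst hv)),
    pd_fst (smooth_diff hu), pd_fst (smooth_diff hv), Fin.sum_univ_three]
  ring

/-- A family of linear maps depending smoothly on the point. -/
def SmoothC (B : Space → Amp →L[ℂ] Amp) : Prop := ∀ v, ContDiff ℝ ∞ fun x => B x v

theorem clm_fun_expand (B : Space → Amp →L[ℂ] Amp) (u : Space → Amp) :
    (fun x => B x (u x)) =
      fun x => (∑ j, (u x).1 j • B x (e1 j)) + (u x).2 • B x e2 :=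
  funext fun x => clm_expand (B x) (u x)

theorem SmoothC.apply {B : Space → Amp →L[ℂ] Amp} (hB : SmoothC B) {u : Space → Amp}
    (hu : ContDiff ℝ ∞ u) : ContDiff ℝ ∞ fun x => B x (u x) := by
  rw [clm_fun_expand]
  exact (ContDiff.sum fun j _ => (contDiff_coord1 hu j).smul (hB (e1 j))).add
    ((contDiff_snd hu).smul (hB e2))

theorem SmoothC.continuous {B : Space → Amp →L[ℂ] Amp} (hB : SmoothC B) : Continuous B :=
  continuous_clm_apply.2 fun v => (hB v).continuous

theorem SmoothC.neg {B : Space → Amp →L[ℂ] Amp} (hB : SmoothC B) : SmoothC fun x => -B x :=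
  fun v => (hB v).neg

theorem SmoothC.sub {B C : Space → Amp →L[ℂ] Amp} (hB : SmoothC B) (hC : SmoothC C) :
    SmoothC fun x => B x - C x := fun v => (hB v).sub (hC v)

theorem SmoothC.trans {B : Space → Amp →L[ℂ] Amp} (hB : SmoothC B) : SmoothC fun x => tr (B x) :=
  fun v => ((contDiff_pi.2 fun j => contDiff_dot4 (hB (e1 j)) contDiff_const)).prodMk
    (contDiff_dot4 (hB e2) contDiff_const)

/-- The derivative of a family of linear maps. -/
def dC (i : Fin 3) (B : Space → Amp →L[ℂ] Amp) (x : Space) : Amp →L[ℂ] Amp :=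
  (∑ j, ((ContinuousLinearMap.proj (R := ℂ) (φ := fun _ : Fin 3 => ℂ) j).comp
      (ContinuousLinearMap.fst ℂ C3 ℂ)).smulRight (pd i (fun y => B y (e1 j)) x)) +
    (ContinuousLinearMap.snd ℂ C3 ℂ).smulRight (pd i (fun y => B y e2) x)

theorem dC_apply (i : Fin 3) (B : Space → Amp →L[ℂ] Amp) (x : Space) (u : Amp) :
    dC i B x u =
      (∑ j, u.1 j • pd i (fun y => B y (e1 j)) x) + u.2 • pd i (fun y => B y e2) x := by
  simp [dC]

theorem SmoothC.deriv {B : Space → Amp →L[ℂ] Amp} (hB : SmoothC B) (i : Fin 3) :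
    SmoothC (dC i B) := fun v => by
  simp only [dC_apply]
  exact (ContDiff.sum fun j _ => (contDiff_pd (hB (e1 j)) i).const_smul (v.1 j)).add
    ((contDiff_pd (hB e2) i).const_smul v.2)

theorem SmoothC.pd_apply {B : Space → Amp →L[ℂ] Amp} (hB : SmoothC B) {u : Space → Amp}
    (hu : ContDiff ℝ ∞ u) (i : Fin 3) (x : Space) :
    pd i (fun y => B y (u y)) x = B x (pd i u x) + dC i B x (u x) := by
  have h1 : ∀ j, Differentiable ℝ fun y => (u y).1 j := fun j => smooth_diff (contDiff_coord1 hu j)
  have h2 : ∀ j, Differentiable ℝ fun y => (u y).1 j • B y (e1 j) := fun j =>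
    smooth_diff ((contDiff_coord1 hu j).smul (hB (e1 j)))
  have h4 : Differentiable ℝ fun y => (u y).2 • B y e2 :=
    smooth_diff ((contDiff_snd hu).smul (hB e2))
  rw [clm_fun_expand, pd_add (Differentiable.fun_sum fun j _ => h2 j) h4, pd_sum Finset.univ fun j _ => h2 j, dC_apply,
    clm_expand (B x) (pd i u x)]
  simp only [pd_smul (h1 _) (smooth_diff (hB _)), pd_smul (smooth_diff (contDiff_snd hu))
    (smooth_diff (hB e2)), pd_snd (smooth_diff hu), pd_coord (smooth_diff (contDiff_fst hu)),
    pd_fst (smooth_diff hu), Finset.sum_add_distrib]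
  abel

end

end Vale.Agent.P136.Full.Solve
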