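import Mathlib
import Vale.Agent.P136.Full.Defs
import Vale.Agent.P136.Full.Solve.Amp
import Vale.Agent.P136.Full.Solve.Calc

/-!
# P136: the conjugated reduced system as a Laplacian system and its transpose
-/

open MeasureTheory
open scoped Topology ContDiff ComplexConjugate

namespace Vale.Agent.P136.Full.Solve

noncomputable section

/-- The coefficients of a first order perturbation of the conjugated Laplacian. -/
structure Coeff where
  /-- The first order coefficients. -/
  b : Fin 3 → Space → Amp →L[ℂ] Amp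
  /-- The zero order coefficient. -/
  b0 : Space → Amp →L[ℂ] Amp
  /-- The zero order coefficient growing with the parameter. -/
  bt : Space → Amp →L[ℂ] Amp
  hb : ∀ i, SmoothC (b i)
  hb0 : SmoothC b0
  hbt : SmoothC bt

/-- The operator. -/
def op (θ : C3) (τ : ℝ) (K : Coeff) (u : Space → Amp) (x : Space) : Amp :=
  lap u x + (2 * (τ : ℂ)) • Dth θ u x + (∑ i, K.b i x (pd i u x)) + K.b0 x (u x) +
    (τ : ℂ) • K.bt x (u x)

/-- The coefficients of the transpose. -/
def Coeff.dual (K : Coeff) : Coeff where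
  b i x := -tr (K.b i x)
  b0 x := tr (K.b0 x) - ∑ i, dC i (fun y => tr (K.b i y)) x
  bt x := tr (K.bt x)
  hb i := (K.hb i).trans.neg
  hb0 := fun v => by
    simp only [sub_apply, sum_apply]
    exact (K.hb0.trans v).sub (ContDiff.sum fun i _ => (K.hb i).trans.deriv i v)
  hbt := K.hbt.trans

/-- The transposed operator. -/
def opT (θ : C3) (τ : ℝ) (K : Coeff) (φ : Space → Amp) : Space → Amp :=
  op (-θ) τ K.dual φ

theorem Dth_neg (θ : C3) (u : Space → Amp) (x : Space) : Dth (-θ) u x = -Dth θ u x := by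
  simp [Dth]

theorem contDiff_lap {E : Type*} [NormedAddCommGroup E] [NormedSpace ℂ E] {u : Space → E}
    (hu : ContDiff ℝ ∞ u) : ContDiff ℝ ∞ (lap u) :=
  ContDiff.sum fun i _ => contDiff_pd (contDiff_pd hu i) i

theorem contDiff_Dth {u : Space → Amp} (hu : ContDiff ℝ ∞ u) (θ : C3) :
    ContDiff ℝ ∞ (Dth θ u) :=
  ContDiff.sum fun i _ => (contDiff_pd hu i).const_smul (θ i)

theorem contDiff_op (θ : C3) (τ : ℝ) (K : Coeff) {u : Space → Amp} (hu : ContDiff ℝ ∞ u) :
    ContDiff ℝ ∞ (op θ τ K u) :=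
  ((((contDiff_lap hu).add ((contDiff_Dth hu θ).const_smul _)).add
    (ContDiff.sum fun i _ => (K.hb i).apply (contDiff_pd hu i))).add (K.hb0.apply hu)).add
    ((K.hbt.apply hu).const_smul _)

theorem op_eq_zero_outside (θ : C3) (τ : ℝ) (K : Coeff) {u : Space → Amp} {R : ℝ}
    (h : ∀ x, R < ‖x‖ → u x = 0) {x : Space} (hx : R < ‖x‖) : op θ τ K u x = 0 := by
  have h1 : ∀ i y, R < ‖y‖ → pd i u y = 0 := fun i y hy => pd_eq_zero_outside h i hy
  simp [op, lap, Dth, h1 _ x hx, pd_eq_zero_outside (h1 _) _ hx, h x hx]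

theorem op_add (θ : C3) (τ : ℝ) (K : Coeff) {u v : Space → Amp} (hu : ContDiff ℝ ∞ u)
    (hv : ContDiff ℝ ∞ v) (x : Space) :
    op θ τ K (fun y => u y + v y) x = op θ τ K u x + op θ τ K v x := by
  have h1 : ∀ i, pd i (fun y => u y + v y) = fun y => pd i u y + pd i v y := fun i =>
    funext fun y => pd_add (smooth_diff hu) (smooth_diff hv) i y
  simp only [op, lap, Dth, h1, pd_add (smooth_diff (contDiff_pd hu _)) (smooth_diff (contDiff_pd hv _)),
    map_add, smul_add, Finset.sum_add_distrib]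
  abel

theorem op_smul (θ : C3) (τ : ℝ) (K : Coeff) {u : Space → Amp} (hu : ContDiff ℝ ∞ u) (c : ℂ)
    (x : Space) : op θ τ K (fun y => c • u y) x = c • op θ τ K u x := by
  have h1 : ∀ i, pd i (fun y => c • u y) = fun y => c • pd i u y := fun i =>
    funext fun y => pd_const_smul c (smooth_diff hu) i y
  simp only [op, lap, Dth, h1, pd_const_smul c (smooth_diff (contDiff_pd hu _)), map_smul,
    Finset.smul_sum, smul_add, smul_comm c]

theorem op_sub (θ : C3) (τ : ℝ) (K : Coeff) {u v : Space → Amp} (hu : ContDiff ℝ ∞ u)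
    (hv : ContDiff ℝ ∞ v) (x : Space) :
    op θ τ K (fun y => u y - v y) x = op θ τ K u x - op θ τ K v x := by
  have h : (fun y => u y - v y) = fun y => u y + (-1 : ℂ) • v y := by
    funext y; rw [neg_one_smul, sub_eq_add_neg]
  rw [h, op_add θ τ K hu (hv.const_smul _), op_smul θ τ K hv, neg_one_smul, sub_eq_add_neg]

/-- The potential of the Green identity. -/
def greenPot (θ : C3) (τ : ℝ) (K : Coeff) (u φ : Space → Amp) (i : Fin 3) (x : Space) : ℂ :=
  dot4 (pd i u x) (φ x) - dot4 (u x) (pd i φ x) + (2 * (τ : ℂ) * θ i) * dot4 (u x) (φ x) +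
    dot4 (u x) (tr (K.b i x) (φ x))

theorem contDiff_greenPot (θ : C3) (τ : ℝ) (K : Coeff) {u φ : Space → Amp} (hu : ContDiff ℝ ∞ u)
    (hφ : ContDiff ℝ ∞ φ) (i : Fin 3) : ContDiff ℝ ∞ (greenPot θ τ K u φ i) :=
  (((contDiff_dot4 (contDiff_pd hu i) hφ).sub (contDiff_dot4 hu (contDiff_pd hφ i))).add
    (contDiff_const.mul (contDiff_dot4 hu hφ))).add
    (contDiff_dot4 hu ((K.hb i).trans.apply hφ))

theorem pd_greenPot (θ : C3) (τ : ℝ) (K : Coeff) {u φ : Space → Amp} (hu : ContDiff ℝ ∞ u)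
    (hφ : ContDiff ℝ ∞ φ) (i : Fin 3) (x : Space) :
    pd i (greenPot θ τ K u φ i) x =
      dot4 (pd i (pd i u) x) (φ x) - dot4 (u x) (pd i (pd i φ) x) +
        (2 * (τ : ℂ) * θ i) * (dot4 (pd i u x) (φ x) + dot4 (u x) (pd i φ x)) +
        (dot4 (K.b i x (pd i u x)) (φ x) + dot4 (u x) (tr (K.b i x) (pd i φ x)) +
          dot4 (u x) (dC i (fun y => tr (K.b i y)) x (φ x))) := by
  have a1 := contDiff_dot4 (contDiff_pd hu i) hφ
  have a2 := contDiff_dot4 hu (contDiff_pd hφ i)
  have a3 := contDiff_dot4 hu hφ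
  have a4 := contDiff_dot4 hu ((K.hb i).trans.apply hφ)
  unfold greenPot
  rw [pd_add (smooth_diff ((a1.sub a2).add (contDiff_const.mul a3))) (smooth_diff a4),
    pd_add (smooth_diff (a1.sub a2)) (smooth_diff (contDiff_const.mul a3)),
    pd_sub (smooth_diff a1) (smooth_diff a2), pd_mul (differentiable_const _) (smooth_diff a3),
    pd_const, zero_mul, add_zero, pd_dot4 (contDiff_pd hu i) hφ, pd_dot4 hu (contDiff_pd hφ i),
    pd_dot4 hu hφ, pd_dot4 hu ((K.hb i).trans.apply hφ), (K.hb i).trans.pd_apply hφ, dot4_tr]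
  simp [dot4, bdot, Fin.sum_univ_three]
  ring

theorem green_pointwise (θ : C3) (τ : ℝ) (K : Coeff) {u φ : Space → Amp} (hu : ContDiff ℝ ∞ u)
    (hφ : ContDiff ℝ ∞ φ) (x : Space) :
    dot4 (op θ τ K u x) (φ x) - dot4 (u x) (opT θ τ K φ x) =
      ∑ i, pd i (greenPot θ τ K u φ i) x := by
  simp only [pd_greenPot θ τ K hu hφ, opT, op, Coeff.dual, Dth_neg, lap, Dth, Fin.sum_univ_three,
    neg_apply, Pi.neg_apply, sub_apply, sum_apply, add_apply, smul_neg, smul_add, dot4_add_left, dot4_add_right,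
    dot4_sub_left, dot4_sub_right, dot4_neg_right, dot4_smul_left, dot4_smul_right, dot4_tr]
  ring

theorem green (θ : C3) (τ : ℝ) (K : Coeff) {u φ : Space → Amp} (hu : ContDiff ℝ ∞ u)
    (hφ : ContDiff ℝ ∞ φ) {R : ℝ} (hs : ∀ x, R < ‖x‖ → φ x = 0) :
    ∫ x, dot4 (op θ τ K u x) (φ x) = ∫ x, dot4 (u x) (opT θ τ K φ x) := by
  have hp : ∀ i x, R < ‖x‖ → greenPot θ τ K u φ i x = 0 := fun i x hx => by
    simp [greenPot, hs x hx, pd_eq_zero_outside hs i hx, dot4, bdot]
  have i1 : Integrable fun x => dot4 (op θ τ K u x) (φ x) :=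
    (contDiff_dot4 (contDiff_op θ τ K hu) hφ).continuous.integrable_of_hasCompactSupport
      (hasCompactSupport_of_bound (f := fun x => dot4 (op θ τ K u x) (φ x)) (R := R) fun x hx => by
        simp [hs x hx, dot4, bdot])
  have i2 : Integrable fun x => dot4 (u x) (opT θ τ K φ x) :=
    (contDiff_dot4 hu (contDiff_op _ τ _ hφ)).continuous.integrable_of_hasCompactSupport
      (hasCompactSupport_of_bound (f := fun x => dot4 (u x) (opT θ τ K φ x)) (R := R) fun x hx => by
        simp [opT, op_eq_zero_outside _ _ _ hs hx, dot4, bdot])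
  have i3 : ∀ i ∈ Finset.univ, Integrable fun x => pd i (greenPot θ τ K u φ i) x := fun i _ =>
    (continuous_pd (contDiff_greenPot θ τ K hu hφ i) i).integrable_of_hasCompactSupport
      (hasCompactSupport_of_bound fun x hx => pd_eq_zero_outside (hp i) i hx)
  rw [← sub_eq_zero, ← integral_sub i1 i2]
  simp only [green_pointwise θ τ K hu hφ]
  rw [integral_finsetSum _ i3]
  exact Finset.sum_eq_zero fun i _ => integral_pd
    ((contDiff_greenPot θ τ K hu hφ i).of_le (by simp)) (hasCompactSupport_of_bound (hp i)) i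

end

end Vale.Agent.P136.Full.Solve
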