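import Mathlib
import Vale.Agent.P136.Full.Defs
import Vale.Agent.P136.Full.Spec
import Vale.Agent.P136.Full.Solve.Amp
import Vale.Agent.P136.Full.Solve.Calc
import Vale.Agent.P136.Full.Solve.Oper

/-!
# P136: duality gives square integrable approximate solutions
-/

open MeasureTheory Filter
open scoped Topology ContDiff ComplexConjugate

namespace Vale.Agent.P136.Full.Solve

noncomputable section

/-- Smooth fields supported in a given closed ball. -/
def IsTest (R : ℝ) (φ : Space → Amp) : Prop := ContDiff ℝ ∞ φ ∧ ∀ x, R < ‖x‖ → φ x = 0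

/-- The functional of the right hand side `(∑ ∂ᵢ Gᵢ + F.1, F.2)`. -/
def ell (G : Fin 3 → Space → C3) (F φ : Space → Amp) : ℂ :=
  ∫ x, (dot4 (F x) (φ x) - ∑ i, dot4 ((G i x, 0) : Amp) (pd i φ x))

/-- The size of the data. -/
def dataSqr (G : Fin 3 → Space → C3) (F : Space → Amp) : ℝ :=
  (∫ x, ampSqr (F x)) + ∑ i, ∫ x, ∑ j, ‖G i x j‖ ^ 2

theorem continuous_ampSqr {u : Space → Amp} (hu : Continuous u) :
    Continuous fun x => ampSqr (u x) := by
  unfold ampSqr; fun_prop

theorem continuous_dot4 {u v : Space → Amp} (hu : Continuous u) (hv : Continuous v) :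
    Continuous fun x => dot4 (u x) (v x) := by
  unfold dot4 bdot; fun_prop

theorem continuous_rdot {u v : Space → Amp} (hu : Continuous u) (hv : Continuous v) :
    Continuous fun x => rdot (u x) (v x) := by
  unfold rdot cj dot4 bdot; fun_prop

theorem integrable_of_bound {G : Type*} [NormedAddCommGroup G] {f : Space → G} (hf : Continuous f)
    {R : ℝ} (h : ∀ x, R < ‖x‖ → f x = 0) : Integrable f :=
  hf.integrable_of_hasCompactSupport (hasCompactSupport_of_bound h)

theorem continuous_pair {G : Fin 3 → Space → C3} (hG : ∀ i, Continuous (G i)) (i : Fin 3) :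
    Continuous fun x => ((G i x, 0) : Amp) := (hG i).prodMk continuous_const

theorem iadd {E : Type*} [NormedAddCommGroup E] {f g : Space → E} (hf : Integrable f)
    (hg : Integrable g) : Integrable fun x => f x + g x := hf.add hg

theorem ampSqr_pair (a : C3) : ampSqr ((a, 0) : Amp) = ∑ j, ‖a j‖ ^ 2 := by simp [ampSqr]

theorem rdot_cj_eq (a b : Amp) : (dot4 a b).re = rdot (cj a) b := by rw [rdot, cj_cj]

theorem ell_integrable {R : ℝ} {G : Fin 3 → Space → C3} {F φ : Space → Amp}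
    (hG : ∀ i, Continuous (G i)) (hF : Continuous F) (hφ : IsTest R φ) :
    Integrable fun x => dot4 (F x) (φ x) - ∑ i, dot4 ((G i x, 0) : Amp) (pd i φ x) :=
  integrable_of_bound ((continuous_dot4 hF hφ.1.continuous).sub
    (continuous_finsetSum _ fun i _ => continuous_dot4 (continuous_pair hG i)
      (continuous_pd hφ.1 i))) (R := R) fun x hx => by
      simp [hφ.2 x hx, pd_eq_zero_outside hφ.2 _ hx, dot4, bdot]

theorem isTest_add {R : ℝ} {φ ψ : Space → Amp} (hφ : IsTest R φ) (hψ : IsTest R ψ) :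
    IsTest R fun x => φ x + ψ x :=
  ⟨hφ.1.add hψ.1, fun x hx => by simp [hφ.2 x hx, hψ.2 x hx]⟩

theorem isTest_smul {R : ℝ} {φ : Space → Amp} (hφ : IsTest R φ) (c : ℂ) :
    IsTest R fun x => c • φ x :=
  ⟨hφ.1.const_smul c, fun x hx => by simp [hφ.2 x hx]⟩

theorem ell_add {R : ℝ} {G : Fin 3 → Space → C3} {F φ ψ : Space → Amp}
    (hG : ∀ i, Continuous (G i)) (hF : Continuous F) (hφ : IsTest R φ) (hψ : IsTest R ψ) :
    ell G F (fun x => φ x + ψ x) = ell G F φ + ell G F ψ := by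
  rw [ell, ell, ell, ← integral_add (ell_integrable hG hF hφ) (ell_integrable hG hF hψ)]
  refine integral_congr_ae (Eventually.of_forall fun x => ?_)
  simp only [pd_add (smooth_diff hφ.1) (smooth_diff hψ.1), dot4_add_right, Finset.sum_add_distrib]
  ring

theorem ell_smul {R : ℝ} {G : Fin 3 → Space → C3} {F φ : Space → Amp} (hφ : IsTest R φ) (c : ℂ) :
    ell G F (fun x => c • φ x) = c * ell G F φ := by
  rw [ell, ell, ← integral_const_mul]
  refine integral_congr_ae (Eventually.of_forall fun x => ?_)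
  simp only [pd_const_smul c (smooth_diff hφ.1), dot4_smul_right, mul_sub, Finset.mul_sum]

/-- The transposed image of a test field. -/
def energyT (θ : C3) (τ : ℝ) (K : Coeff) (φ : Space → Amp) : ℝ :=
  ∫ x, ampSqr (opT θ τ K φ x)

theorem re_ell_bound {R : ℝ} {G : Fin 3 → Space → C3} {F φ : Space → Amp}
    (hG : ∀ i, Continuous (G i)) (hGs : ∀ i, HasCompactSupport (G i)) (hF : Continuous F)
    (hFs : HasCompactSupport F) (hφ : IsTest R φ) {s : ℝ} (hs : 0 < s) :
    2 * (ell G F φ).re ≤ s * dataSqr G F +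
      ((∫ x, ampSqr (φ x)) + ∫ x, ∑ i, ampSqr (pd i φ x)) / s := by
  have iF : Integrable fun x => ampSqr (F x) :=
    (continuous_ampSqr hF).integrable_of_hasCompactSupport (hFs.comp_left ampSqr_zero)
  have iG : ∀ i, Integrable fun x => ampSqr ((G i x, 0) : Amp) := fun i =>
    (continuous_ampSqr (continuous_pair hG i)).integrable_of_hasCompactSupport
      ((hGs i).comp_left (g := fun a : C3 => ampSqr ((a, 0) : Amp)) (by simp [ampSqr]))
  have iG' : Integrable fun x => ∑ i, ampSqr ((G i x, 0) : Amp) :=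
    integrable_finsetSum _ fun i _ => iG i
  have iφ : Integrable fun x => ampSqr (φ x) :=
    integrable_of_bound (continuous_ampSqr hφ.1.continuous) (R := R) fun x hx => by
      simp [hφ.2 x hx, ampSqr_zero]
  have iD : Integrable fun x => ∑ i, ampSqr (pd i φ x) :=
    integrable_of_bound (continuous_finsetSum _ fun i _ => continuous_ampSqr (continuous_pd hφ.1 i))
      (R := R) fun x hx => by simp [pd_eq_zero_outside hφ.2 _ hx, ampSqr_zero]
  have hD : dataSqr G F = ∫ x, (ampSqr (F x) + ∑ i, ampSqr ((G i x, 0) : Amp)) := by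
    rw [integral_add iF iG', integral_finsetSum _ fun i _ => iG i]
    simp [dataSqr, ampSqr_pair]
  rw [hD, ← integral_const_mul, ← integral_add iφ iD, ← integral_div,
    ← integral_add ((iadd iF iG').const_mul s) ((iadd iφ iD).div_const s), ell]
  have hre : (∫ x, (dot4 (F x) (φ x) - ∑ i, dot4 ((G i x, 0) : Amp) (pd i φ x))).re =
      ∫ x, (dot4 (F x) (φ x) - ∑ i, dot4 ((G i x, 0) : Amp) (pd i φ x)).re :=
    (integral_re (ell_integrable hG hF hφ)).symm
  rw [hre, ← integral_const_mul]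
  refine integral_mono ((ell_integrable hG hF hφ).re.const_mul 2)
    (iadd ((iadd iF iG').const_mul s) ((iadd iφ iD).div_const s)) fun x => ?_
  simp only [Complex.sub_re, Complex.re_sum, rdot_cj_eq]
  have h1 := (abs_le.1 (abs_rdot_le (cj (F x)) (φ x) s hs)).2
  have h2 := fun i => (abs_le.1 (abs_rdot_le (cj ((G i x, 0) : Amp)) (pd i φ x) s hs)).1
  simp only [ampSqr_cj] at h1 h2
  simp only [Fin.sum_univ_three, add_div, mul_add]
  linarith [h2 0, h2 1, h2 2]

theorem contDiff_cj {u : Space → Amp} (hu : ContDiff ℝ ∞ u) :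
    ContDiff ℝ ∞ fun x => cj (u x) :=
  (contDiff_pi.2 fun i => Complex.conjCLE.contDiff.comp (contDiff_coord1 hu i)).prodMk
    (Complex.conjCLE.contDiff.comp (contDiff_snd hu))

theorem eq_carleman (θ : C3) (τ : ℝ) (K : Coeff) (φ : Space → Amp) (x : Space) :
    opT θ τ K φ x = lap φ x - (2 * (τ : ℂ)) • Dth θ φ x + (∑ i, K.dual.b i x (pd i φ x)) +
      K.dual.b0 x (φ x) + (τ : ℂ) • K.dual.bt x (φ x) := by
  simp only [opT, op, Dth_neg, smul_neg, sub_eq_add_neg]

/-- Square integrable approximate solutions. -/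
theorem exists_dual (hC : CarlemanStmt) {θ : C3} (hθ : IsNull θ) (R : ℝ) (K : Coeff) :
    ∃ C τ₀ : ℝ, 0 < C ∧ 1 ≤ τ₀ ∧ ∀ τ : ℝ, τ₀ ≤ τ → ∀ (G : Fin 3 → Space → C3) (F : Space → Amp),
      (∀ i, Continuous (G i) ∧ HasCompactSupport (G i)) → Continuous F → HasCompactSupport F →
      ∃ U : ℕ → Space → Amp, ∃ ε : ℕ → ℝ, Tendsto ε atTop (𝓝 0) ∧ (∀ k, IsTest R (U k)) ∧
        (∀ k, ∫ x, ampSqr (U k x) ≤ C * dataSqr G F) ∧
        Tendsto (fun q : ℕ × ℕ => ∫ x, ampSqr (U q.1 x - U q.2 x)) atTop (𝓝 0) ∧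
        ∀ k ψ, IsTest R ψ →
          ‖(∫ x, dot4 (U k x) (opT θ τ K ψ x)) - ell G F ψ‖ ^ 2 ≤ ε k * energyT θ τ K ψ := by
  obtain ⟨C, τ₀, hC0, hτ₀, hcar⟩ := hC θ hθ R (fun x i => K.dual.b i x) K.dual.b0 K.dual.bt
    (continuous_pi fun i => (K.dual.hb i).continuous) K.dual.hb0.continuous K.dual.hbt.continuous
  refine ⟨4 * C, τ₀, by positivity, hτ₀, fun τ hτ G F hG hF hFs => ?_⟩
  set P := opT θ τ K with hP
  have hPs : ∀ φ, IsTest R φ → IsTest R (P φ) := fun φ hφ =>
    ⟨contDiff_op _ _ _ hφ.1, fun x hx => op_eq_zero_outside _ _ _ hφ.2 hx⟩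
  have iP : ∀ φ ψ, IsTest R φ → IsTest R ψ → Integrable fun x => rdot (P φ x) (P ψ x) :=
    fun φ ψ hφ hψ => integrable_of_bound
      (continuous_rdot (hPs φ hφ).1.continuous (hPs ψ hψ).1.continuous) (R := R) fun x hx => by
        simp [(hPs φ hφ).2 x hx, rdot, cj, dot4, bdot]
  have iE : ∀ φ, IsTest R φ → Integrable fun x => ampSqr (P φ x) := fun φ hφ =>
    integrable_of_bound (continuous_ampSqr (hPs φ hφ).1.continuous) (R := R) fun x hx => by
      simp [(hPs φ hφ).2 x hx, ampSqr_zero]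
  let Q : (Space → Amp) → ℝ := fun φ => energyT θ τ K φ - 2 * (ell G F φ).re
  have h1τ : 1 ≤ τ := hτ₀.trans hτ
  have hest : ∀ φ, IsTest R φ → ∀ s : ℝ, 0 < s →
      2 * (ell G F φ).re ≤ s * dataSqr G F + C / s * energyT θ τ K φ := by
    intro φ hφ s hs
    refine (re_ell_bound (fun i => (hG i).1) (fun i => (hG i).2) hF hFs hφ hs).trans ?_
    have h := hcar τ hτ φ hφ.1 hφ.2
    simp only [← eq_carleman] at h
    have hn : 0 ≤ ∫ x, ampSqr (φ x) := integral_nonneg fun x => ampSqr_nonneg _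
    have : (∫ x, ampSqr (φ x)) + ∫ x, ∑ i, ampSqr (pd i φ x) ≤ C * energyT θ τ K φ :=
      (add_le_add (le_mul_of_one_le_left hn (one_le_pow₀ h1τ)) le_rfl).trans h
    rw [div_mul_eq_mul_div]
    gcongr
  have hzero : IsTest R (fun _ => (0 : Amp)) := ⟨contDiff_const, fun _ _ => rfl⟩
  have hQ0 : Q (fun _ => 0) = 0 := by
    have hz : ∀ x, opT θ τ K (fun _ => (0 : Amp)) x = 0 := fun x =>
      op_eq_zero_outside _ _ _ (R := ‖x‖ - 1) (fun _ _ => rfl) (by linarith)
    simp [Q, energyT, ell, hz, pd_const, ampSqr_zero, dot4, bdot]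
  set S := {r : ℝ | ∃ φ, IsTest R φ ∧ r = Q φ} with hSdef
  have hSne : S.Nonempty := ⟨_, _, hzero, rfl⟩
  have hSb : BddBelow S := ⟨-(C * dataSqr G F), by
    rintro r ⟨φ, hφ, rfl⟩
    have := hest φ hφ C hC0
    rw [div_self hC0.ne', one_mul] at this
    simp only [Q]; linarith⟩
  set m := sInf S with hm
  have hmQ : ∀ φ, IsTest R φ → m ≤ Q φ := fun φ hφ => csInf_le hSb ⟨φ, hφ, rfl⟩
  have hsel : ∀ k : ℕ, ∃ φ, IsTest R φ ∧ Q φ ≤ m + 1 / (k + 1 : ℝ) ∧ Q φ ≤ 0 := by
    intro k
    obtain ⟨r, ⟨φ, hφ, rfl⟩, hr⟩ := exists_lt_of_csInf_lt hSne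
      (lt_add_of_pos_right m (show (0 : ℝ) < 1 / (k + 1 : ℝ) by positivity))
    by_cases h : Q φ ≤ 0
    · exact ⟨φ, hφ, hr.le, h⟩
    · exact ⟨_, hzero, by rw [hQ0]; linarith, hQ0.le⟩
  choose φ hφ hφm hφ0 using hsel
  have hlin : ∀ a b, IsTest R a → IsTest R b → ∀ t : ℝ, Q (fun x => a x + (t : ℂ) • b x) =
      Q a + 2 * t * ((∫ x, rdot (P a x) (P b x)) - (ell G F b).re) + t ^ 2 * energyT θ τ K b := by
    intro a b ha hb t
    have e : ∀ x, P (fun y => a y + (t : ℂ) • b y) x = P a x + (t : ℂ) • P b x := fun x => by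
      simp only [hP, opT]
      rw [op_add _ _ _ ha.1 (hb.1.const_smul _), op_smul _ _ _ hb.1]
    have e2 : energyT θ τ K (fun y => a y + (t : ℂ) • b y) =
        energyT θ τ K a + 2 * t * (∫ x, rdot (P a x) (P b x)) + t ^ 2 * energyT θ τ K b := by
      simp only [energyT, ← hP, e, ampSqr_add, ampSqr_smul, rdot_smul_right, Complex.norm_real,
        Real.norm_eq_abs, sq_abs]
      rw [integral_add (iadd (iE a ha) (((iP a b ha hb).const_mul t).const_mul 2))
        ((iE b hb).const_mul _), integral_add (iE a ha) (((iP a b ha hb).const_mul t).const_mul 2),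
        integral_const_mul, integral_const_mul, integral_const_mul]
      ring
    simp only [Q]
    rw [e2, ell_add (fun i => (hG i).1) hF ha (isTest_smul hb _), ell_smul hb, Complex.add_re,
      Complex.re_ofReal_mul]
    ring
  refine ⟨fun k x => cj (P (φ k) x), fun k => 2 / (k + 1 : ℝ), ?_, fun k => ?_, fun k => ?_, ?_,
    fun k ψ hψ => ?_⟩
  · simpa [div_eq_mul_inv] using (tendsto_one_div_add_atTop_nhds_zero_nat (𝕜 := ℝ)).const_mul 2
  · exact ⟨contDiff_cj (hPs _ (hφ k)).1, fun x hx => by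
      simp [(hPs _ (hφ k)).2 x hx, cj]; rfl⟩
  · simp only [ampSqr_cj]
    have h := hest (φ k) (hφ k) (2 * C) (by positivity)
    have e : C / (2 * C) = (1 / 2 : ℝ) := by field_simp
    rw [e] at h
    have h0 := hφ0 k
    simp only [Q, energyT] at h0 h ⊢
    linarith
  · have hb : ∀ p q : ℕ, ∫ x, ampSqr (P (φ p) x - P (φ q) x) ≤
        2 / (p + 1 : ℝ) + 2 / (q + 1 : ℝ) := by
      intro p q
      have hd : IsTest R (fun x => φ q x + ((-1 : ℝ) : ℂ) • φ p x) :=
        isTest_add (hφ q) (isTest_smul (hφ p) _)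
      have e : (fun x => ampSqr (P (φ p) x - P (φ q) x)) =
          fun x => ampSqr (P (fun y => φ q y + ((-1 : ℝ) : ℂ) • φ p y) x) := by
        funext x
        simp only [hP, opT]
        rw [op_add _ _ _ (hφ q).1 ((hφ p).1.const_smul _), op_smul _ _ _ (hφ p).1,
          ← ampSqr_neg (_ - _)]
        congr 1
        push_cast
        module
      have hmid := hmQ _ (isTest_add (hφ p) (isTest_smul hd ((1 / 2 : ℝ) : ℂ)))
      rw [hlin _ _ (hφ p) hd] at hmid
      have hone := hlin _ _ (hφ p) hd 1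
      have hsum : (fun y => φ p y + ((1 : ℝ) : ℂ) • (φ q y + ((-1 : ℝ) : ℂ) • φ p y)) = φ q := by
        funext y; push_cast; module
      rw [hsum] at hone
      rw [e]
      change energyT θ τ K _ ≤ _
      have h1 := hφm p
      have h2 := hφm q
      have e1 : 2 / (p + 1 : ℝ) = 2 * (1 / (p + 1 : ℝ)) := by ring
      have e2 : 2 / (q + 1 : ℝ) = 2 * (1 / (q + 1 : ℝ)) := by ring
      linarith
    refine squeeze_zero (fun q => integral_nonneg fun x => ampSqr_nonneg _)
      (fun q => by simpa [← cj_sub, ampSqr_cj] using hb q.1 q.2) ?_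
    have h0 : Tendsto (fun n : ℕ => 2 / (n + 1 : ℝ)) atTop (𝓝 0) := by
      simpa [div_eq_mul_inv] using (tendsto_one_div_add_atTop_nhds_zero_nat (𝕜 := ℝ)).const_mul 2
    rw [← prod_atTop_atTop_eq]
    simpa using (h0.comp tendsto_fst).add (h0.comp tendsto_snd)
  · have key : ∀ ψ', IsTest R ψ' →
        ((∫ x, dot4 (cj (P (φ k) x)) (P ψ' x)) - ell G F ψ').re ^ 2 ≤
          1 / (k + 1 : ℝ) * energyT θ τ K ψ' := by
      intro ψ' hψ'
      have hi : Integrable fun x => dot4 (cj (P (φ k) x)) (P ψ' x) :=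
        integrable_of_bound (continuous_dot4 (contDiff_cj (hPs _ (hφ k)).1).continuous
          (hPs ψ' hψ').1.continuous) (R := R) fun x hx => by
          simp [(hPs ψ' hψ').2 x hx, dot4, bdot]
      rw [Complex.sub_re, show (∫ x, dot4 (cj (P (φ k) x)) (P ψ' x)).re =
        ∫ x, rdot (P (φ k) x) (P ψ' x) from (integral_re hi).symm]
      have hq : ∀ t : ℝ, 0 ≤ energyT θ τ K ψ' * (t * t) +
          2 * ((∫ x, rdot (P (φ k) x) (P ψ' x)) - (ell G F ψ').re) * t + 1 / (k + 1 : ℝ) := by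
        intro t
        have h := hmQ _ (isTest_add (hφ k) (isTest_smul hψ' (t : ℂ)))
        rw [hlin _ _ (hφ k) hψ'] at h
        nlinarith [hφm k]
      have h := discrim_le_zero hq
      rw [discrim] at h
      linarith
    have k1 := key ψ hψ
    have k2 := key _ (isTest_smul hψ Complex.I)
    have e1 : (fun x => dot4 (cj (P (φ k) x)) (P (fun y => Complex.I • ψ y) x)) =
        fun x => Complex.I * dot4 (cj (P (φ k) x)) (P ψ x) := by
      funext x; simp only [hP, opT]; rw [op_smul _ _ _ hψ.1, dot4_smul_right]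
    have e2 : energyT θ τ K (fun y => Complex.I • ψ y) = energyT θ τ K ψ := by
      simp only [energyT, opT, op_smul _ _ _ hψ.1, ampSqr_smul, Complex.norm_I, one_pow, one_mul]
    rw [e1, integral_const_mul, ell_smul hψ, ← mul_sub, Complex.I_mul_re, e2, neg_sq] at k2
    rw [← Complex.normSq_eq_norm_sq, Complex.normSq_apply]
    beta_reduce
    have e3 : 2 / (k + 1 : ℝ) = 2 * (1 / (k + 1 : ℝ)) := by ring
    rw [e3]
    simp only [sq] at k1 k2
    nlinarith

end

end Vale.Agent.P136.Full.Solve
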