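import Mathlib
import Vale.Agent.P136.Full.Defs
import Vale.Agent.P136.Full.Solve.Amp
import Vale.Agent.P136.Full.Solve.Calc

/-!
# P136: averages over small balls
-/

open MeasureTheory Filter Metric
open scoped Topology ContDiff ComplexConjugate

namespace Vale.Agent.P136.Full.Solve

noncomputable section

/-- The bump defining the averages. -/
def bump : ContDiffBump (0 : Space) := ⟨1 / 2, 1, by norm_num, by norm_num⟩

/-- The kernel of the averages. -/
def eta : Space → ℝ := bump.normed volume

/-- The average at scale `δ`. -/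
def avg {E : Type*} [NormedAddCommGroup E] [NormedSpace ℝ E] (δ : ℝ) (u : Space → E) (x : Space) :
    E :=
  ∫ y, eta y • u (x - δ • y)

theorem eta_smooth : ContDiff ℝ ∞ eta := bump.contDiff_normed

theorem eta_continuous : Continuous eta := eta_smooth.continuous

theorem eta_nonneg (y : Space) : 0 ≤ eta y := bump.nonneg_normed y

theorem eta_integral : ∫ y, eta y = 1 := bump.integral_normed

theorem eta_eq_zero {y : Space} (hy : 1 < ‖y‖) : eta y = 0 := by
  refine image_eq_zero_of_notMem_tsupport (f := eta) ?_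
  rw [eta, bump.tsupport_normed_eq]
  simpa [bump] using hy

theorem exists_eta_bound : ∃ K, 0 ≤ K ∧ ∀ y, |eta y| ≤ K ∧ ∀ i, |fderiv ℝ eta y (Pi.single i 1)| ≤ K := by
  obtain ⟨K₁, hK₁⟩ :=
    eta_continuous.bounded_above_of_compact_support bump.hasCompactSupport_normed
  obtain ⟨K₂, hK₂⟩ := (eta_smooth.continuous_fderiv (by simp)).bounded_above_of_compact_support
    (bump.hasCompactSupport_normed.fderiv (𝕜 := ℝ))
  refine ⟨max K₁ K₂, ((norm_nonneg _).trans (hK₁ 0)).trans (le_max_left _ _), fun y =>
    ⟨(hK₁ y).trans (le_max_left _ _), fun i => ?_⟩⟩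
  refine le_trans ?_ ((hK₂ y).trans (le_max_right _ _))
  have h := (fderiv ℝ eta y).le_opNorm (Pi.single i (1 : ℝ))
  rw [Pi.norm_single, norm_one, mul_one] at h
  exact h

section Real

variable {E F : Type*} [NormedAddCommGroup E] [NormedSpace ℝ E] [NormedAddCommGroup F]
  [NormedSpace ℝ F]

theorem eta_smul_integrable {h : Space → E} (hh : Continuous h) :
    Integrable fun y => eta y • h y :=
  (eta_continuous.smul hh).integrable_of_hasCompactSupport
    (bump.hasCompactSupport_normed.smul_right)

theorem avg_integrable {u : Space → E} (hu : Continuous u) (δ : ℝ) (x : Space) :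
    Integrable fun y => eta y • u (x - δ • y) :=
  eta_smul_integrable (hu.comp (by fun_prop))

theorem avg_add {u v : Space → E} (hu : Continuous u) (hv : Continuous v) (δ : ℝ) (x : Space) :
    avg δ (fun z => u z + v z) x = avg δ u x + avg δ v x := by
  simp only [avg, smul_add, integral_add (avg_integrable hu δ x) (avg_integrable hv δ x)]

theorem avg_sub {u v : Space → E} (hu : Continuous u) (hv : Continuous v) (δ : ℝ) (x : Space) :
    avg δ (fun z => u z - v z) x = avg δ u x - avg δ v x := by
  simp only [avg, smul_sub, integral_sub (avg_integrable hu δ x) (avg_integrable hv δ x)]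

theorem avg_sum {ι : Type*} (s : Finset ι) {u : ι → Space → E} (hu : ∀ j, Continuous (u j))
    (δ : ℝ) (x : Space) : avg δ (fun z => ∑ j ∈ s, u j z) x = ∑ j ∈ s, avg δ (u j) x := by
  simp only [avg, Finset.smul_sum]
  exact integral_finsetSum _ fun j _ => avg_integrable (hu j) δ x

theorem avg_clm [CompleteSpace E] [CompleteSpace F] (L : E →L[ℝ] F) {u : Space → E}
    (hu : Continuous u) (δ : ℝ) (x : Space) : avg δ (fun z => L (u z)) x = L (avg δ u x) := by
  simp only [avg, ← map_smul, L.integral_comp_comm (avg_integrable hu δ x)]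

theorem hasFDerivAt_avg [CompleteSpace E] {u : Space → E} (hu : ContDiff ℝ 1 u) (δ : ℝ)
    (x₀ : Space) : HasFDerivAt (avg δ u) (avg δ (fderiv ℝ u) x₀) x₀ := by
  obtain ⟨C, hC⟩ := (isCompact_closedBall (0 : Space) (‖x₀‖ + 1 + |δ|)).exists_bound_of_continuousOn
    (hu.continuous_fderiv one_ne_zero).continuousOn
  refine hasFDerivAt_integral_of_dominated_of_fderiv_le (F := fun x y => eta y • u (x - δ • y))
    (F' := fun x y => eta y • fderiv ℝ u (x - δ • y)) (bound := fun y => C * eta y)
    (s := ball x₀ 1) (ball_mem_nhds x₀ one_pos) ?_ (avg_integrable hu.continuous δ x₀)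
    (eta_smul_integrable ((hu.continuous_fderiv one_ne_zero).comp (by fun_prop))).aestronglyMeasurable
    ?_ ((eta_continuous.integrable_of_hasCompactSupport bump.hasCompactSupport_normed).const_mul C) ?_
  · exact Eventually.of_forall fun x => (avg_integrable hu.continuous δ x).aestronglyMeasurable
  · refine Eventually.of_forall fun y x hx => ?_
    rw [norm_smul, Real.norm_eq_abs, abs_of_nonneg (eta_nonneg y)]
    by_cases hy : 1 < ‖y‖
    · simp [eta_eq_zero hy]
    rw [mul_comm C]
    refine mul_le_mul_of_nonneg_left (hC _ ?_) (eta_nonneg y)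
    rw [mem_closedBall_zero_iff]
    rw [mem_ball, dist_eq_norm] at hx
    have h1 : ‖x‖ ≤ ‖x - x₀‖ + ‖x₀‖ := by simpa using norm_add_le (x - x₀) x₀
    have h2 : ‖δ • y‖ ≤ |δ| := by
      rw [norm_smul, Real.norm_eq_abs]
      exact mul_le_of_le_one_right (abs_nonneg δ) (not_lt.1 hy)
    linarith [norm_sub_le x (δ • y)]
  · refine Eventually.of_forall fun y x _ => ?_
    exact (((hu.differentiable one_ne_zero) (x - δ • y)).hasFDerivAt.comp x
      ((hasFDerivAt_id x).sub_const (δ • y))).const_smul (eta y)

end Real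

theorem contDiff_avg_nat (n : ℕ) : ∀ {E : Type} [NormedAddCommGroup E] [NormedSpace ℝ E]
    [CompleteSpace E] {u : Space → E}, ContDiff ℝ ∞ u → ∀ δ : ℝ, ContDiff ℝ n (avg δ u) := by
  induction n with
  | zero =>
    intro E _ _ _ u hu δ
    exact contDiff_zero.2 (continuous_iff_continuousAt.2 fun x =>
      (hasFDerivAt_avg (hu.of_le (by simp)) δ x).continuousAt)
  | succ n ih =>
    intro E _ _ _ u hu δ
    rw [Nat.cast_succ, contDiff_succ_iff_fderiv]
    refine ⟨fun x => (hasFDerivAt_avg (hu.of_le (by simp)) δ x).differentiableAt, by simp, ?_⟩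
    rw [show fderiv ℝ (avg δ u) = avg δ (fderiv ℝ u) from
      funext fun x => (hasFDerivAt_avg (hu.of_le (by simp)) δ x).fderiv]
    exact ih (hu.fderiv_right (m := ∞) (by simp)) δ

theorem contDiff_avg {E : Type} [NormedAddCommGroup E] [NormedSpace ℝ E] [CompleteSpace E]
    {u : Space → E} (hu : ContDiff ℝ ∞ u) (δ : ℝ) : ContDiff ℝ ∞ (avg δ u) :=
  contDiff_infty.2 fun n => contDiff_avg_nat n hu δ

theorem pd_avg {E : Type*} [NormedAddCommGroup E] [NormedSpace ℂ E] [CompleteSpace E]
    {u : Space → E} (hu : ContDiff ℝ ∞ u) (δ : ℝ) (i : Fin 3) (x : Space) :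
    pd i (avg δ u) x = avg δ (pd i u) x := by
  rw [pd, (hasFDerivAt_avg (hu.of_le (by simp)) δ x).fderiv]
  exact (avg_clm (ContinuousLinearMap.apply ℝ E (Pi.single i 1))
    (hu.continuous_fderiv (by simp)) δ x).symm

theorem avg_smulC {E : Type*} [NormedAddCommGroup E] [NormedSpace ℂ E] (c : ℂ) (u : Space → E)
    (δ : ℝ) (x : Space) : avg δ (fun z => c • u z) x = c • avg δ u x := by
  simp only [avg, smul_comm _ c, integral_smul]

/-- Uniform convergence of the averages on balls. -/
theorem avg_tendsto {E : Type*} [NormedAddCommGroup E] [NormedSpace ℝ E] [CompleteSpace E]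
    {v : Space → E} (hv : Continuous v) (r : ℝ) {ε : ℝ} (hε : 0 < ε) :
    ∃ δ₀ > 0, ∀ δ : ℝ, 0 ≤ δ → δ ≤ δ₀ → ∀ x, ‖x‖ ≤ r → ‖avg δ v x - v x‖ ≤ ε := by
  obtain ⟨d, hd0, hd⟩ := Metric.uniformContinuousOn_iff.1
    ((isCompact_closedBall (0 : Space) (r + 1)).uniformContinuousOn_of_continuous hv.continuousOn)
    ε hε
  refine ⟨min 1 (d / 2), by positivity, fun δ h0 hδ x hx => ?_⟩
  have e : avg δ v x - v x = ∫ y, eta y • (v (x - δ • y) - v x) := by
    simp only [avg, smul_sub]
    rw [integral_sub (avg_integrable hv δ x) (eta_smul_integrable continuous_const),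
      integral_smul_const, eta_integral, one_smul]
  rw [e]
  refine (norm_integral_le_integral_norm _).trans ?_
  calc ∫ y, ‖eta y • (v (x - δ • y) - v x)‖ ≤ ∫ y, ε * eta y := ?_
    _ = ε := by rw [integral_const_mul, eta_integral, mul_one]
  refine integral_mono (eta_smul_integrable ((hv.comp (by fun_prop)).sub continuous_const)).norm
    ((eta_continuous.integrable_of_hasCompactSupport bump.hasCompactSupport_normed).const_mul ε)
    fun y => ?_
  simp only [norm_smul, Real.norm_eq_abs, abs_of_nonneg (eta_nonneg y)]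
  by_cases hy : 1 < ‖y‖
  · simp [eta_eq_zero hy]
  rw [mul_comm ε]
  refine mul_le_mul_of_nonneg_left ?_ (eta_nonneg y)
  have h2 : ‖δ • y‖ ≤ δ := by
    rw [norm_smul, Real.norm_eq_abs, abs_of_nonneg h0]
    exact mul_le_of_le_one_right h0 (not_lt.1 hy)
  have hd' : dist (x - δ • y) x < d := by
    rw [dist_eq_norm]
    have : ‖x - δ • y - x‖ = ‖δ • y‖ := by simp
    linarith [min_le_right (1 : ℝ) (d / 2)]
  refine le_of_lt ?_
  rw [← dist_eq_norm]
  refine hd _ ?_ _ ?_ hd'
  · rw [mem_closedBall_zero_iff]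
    linarith [norm_sub_le x (δ • y), min_le_left (1 : ℝ) (d / 2)]
  · rw [mem_closedBall_zero_iff]; linarith

/-- The sum over a small ball. -/
def bsum (δ : ℝ) (h : Space → ℝ) (x : Space) : ℝ :=
  ∫ y in closedBall (0 : Space) 1, h (x - δ • y)

/-- The volume of the unit ball. -/
def vol1 : ℝ := (volume : Measure Space).real (closedBall (0 : Space) 1)

theorem vol1_pos : 0 < vol1 :=
  ENNReal.toReal_pos (measure_closedBall_pos volume 0 one_pos).ne' measure_closedBall_lt_top.ne

theorem bsum_integrable {h : Space → ℝ} (hh : Continuous h) (δ : ℝ) (x : Space) :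
    IntegrableOn (fun y => h (x - δ • y)) (closedBall (0 : Space) 1) :=
  (hh.comp (by fun_prop)).continuousOn.integrableOn_compact (isCompact_closedBall 0 1)

theorem bsum_sq_le {h : Space → ℝ} (hh : Continuous h) (δ : ℝ) (x : Space) :
    bsum δ h x ^ 2 ≤ vol1 * bsum δ (fun z => h z ^ 2) x := by
  set c := bsum δ h x / vol1 with hc
  have i0 : IntegrableOn (fun _ : Space => c ^ 2) (closedBall (0 : Space) 1) :=
    integrableOn_const measure_closedBall_lt_top.ne
  have i1 := (bsum_integrable hh δ x).const_mul (2 * c)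
  have i2 : IntegrableOn (fun y => h (x - δ • y) ^ 2) (closedBall (0 : Space) 1) :=
    bsum_integrable (hh.pow 2) δ x
  have h0 : 0 ≤ ∫ y in closedBall (0 : Space) 1, (h (x - δ • y) ^ 2 - 2 * c * h (x - δ • y) + c ^ 2) :=
    integral_nonneg fun y => by
      simp only [Pi.zero_apply]
      nlinarith [sq_nonneg (h (x - δ • y) - c)]
  have i21 : IntegrableOn (fun y => h (x - δ • y) ^ 2 - 2 * c * h (x - δ • y))
      (closedBall (0 : Space) 1) := Integrable.sub i2 i1
  rw [integral_add i21 i0, integral_sub i2 i1, integral_const_mul, setIntegral_const,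
    smul_eq_mul] at h0
  change 0 ≤ bsum δ (fun z => h z ^ 2) x - 2 * c * bsum δ h x + vol1 * c ^ 2 at h0
  have hv := vol1_pos
  have e : vol1 * c = bsum δ h x := by rw [hc]; field_simp
  nlinarith [mul_le_mul_of_nonneg_left h0 hv.le]

/-- Averaging over small balls is bounded in mean square. -/
theorem integral_bsum_sq {h : Space → ℝ} (hh : Continuous h) (hs : HasCompactSupport h) (δ : ℝ)
    (S : Set Space) :
    ∫ x in S, bsum δ h x ^ 2 ≤ vol1 ^ 2 * ∫ x, h x ^ 2 := by
  obtain ⟨K, hK⟩ := hs.isCompact.isBounded.exists_norm_le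
  have hout : ∀ z, K < ‖z‖ → h z = 0 := fun z hz =>
    image_eq_zero_of_notMem_tsupport fun hmem => absurd (hK z hmem) (not_le.2 hz)
  set B := closedBall (0 : Space) 1 with hB
  set f : Space → Space → ℝ := fun x y => h (x - δ • y) ^ 2 with hf
  have hfc : Continuous (Function.uncurry f) := by
    simp only [hf, Function.uncurry_def]; fun_prop
  have hint : Integrable (Function.uncurry f) (volume.prod (volume.restrict B)) := by
    have hres : (volume : Measure Space).prod (volume.restrict B) =
        ((volume : Measure Space).prod volume).restrict (Set.univ ×ˢ B) := by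
      rw [← Measure.prod_restrict, Measure.restrict_univ]
    rw [hres]
    refine IntegrableOn.congr_fun_ae (f := (closedBall (0 : Space) (K + |δ|) ×ˢ B).indicator
      (Function.uncurry f)) ?_ ?_
    · refine Integrable.integrableOn ?_
      rw [integrable_indicator_iff ((measurableSet_closedBall).prod measurableSet_closedBall)]
      exact hfc.continuousOn.integrableOn_compact
        ((isCompact_closedBall _ _).prod (isCompact_closedBall _ _))
    · filter_upwards [ae_restrict_mem (MeasurableSet.univ.prod measurableSet_closedBall)] with z hz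
      by_cases h1 : z ∈ closedBall (0 : Space) (K + |δ|) ×ˢ B
      · rw [Set.indicator_of_mem h1]
      · rw [Set.indicator_of_notMem h1]
        have hz1 : ¬ ‖z.1‖ ≤ K + |δ| := fun hh' => h1 ⟨mem_closedBall_zero_iff.2 hh', hz.2⟩
        have hy : ‖δ • z.2‖ ≤ |δ| := by
          rw [norm_smul, Real.norm_eq_abs]
          exact mul_le_of_le_one_right (abs_nonneg δ) (mem_closedBall_zero_iff.1 hz.2)
        have h2 : ‖z.1‖ ≤ ‖z.1 - δ • z.2‖ + ‖δ • z.2‖ := by
          simpa using norm_add_le (z.1 - δ • z.2) (δ • z.2)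
        simp [Function.uncurry_def, hf, hout (z.1 - δ • z.2) (by linarith [not_le.1 hz1])]
  have hsq : ∫ x, bsum δ (fun z => h z ^ 2) x = vol1 * ∫ x, h x ^ 2 := by
    show ∫ x, ∫ y in B, f x y = _
    rw [integral_integral_swap hint]
    simp only [hf]
    rw [show (fun y : Space => ∫ x, h (x - δ • y) ^ 2) = fun _ => ∫ x, h x ^ 2 from
      funext fun y => integral_sub_right_eq_self (fun x => h x ^ 2) (δ • y)]
    rw [setIntegral_const, smul_eq_mul]
    rfl
  have i2 : Integrable fun x => bsum δ (fun z => h z ^ 2) x := hint.integral_prod_left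
  calc ∫ x in S, bsum δ h x ^ 2 ≤ ∫ x in S, vol1 * bsum δ (fun z => h z ^ 2) x := by
        refine integral_mono_of_nonneg (Eventually.of_forall fun x => sq_nonneg _)
          (i2.const_mul _).integrableOn (Eventually.of_forall fun x => bsum_sq_le hh δ x)
    _ ≤ ∫ x, vol1 * bsum δ (fun z => h z ^ 2) x := by
        refine setIntegral_le_integral (i2.const_mul _) (Eventually.of_forall fun x => ?_)
        exact mul_nonneg vol1_pos.le (integral_nonneg fun y => sq_nonneg _)
    _ = vol1 ^ 2 * ∫ x, h x ^ 2 := by rw [integral_const_mul, hsq]; ring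

theorem norm_avg_le {E : Type*} [NormedAddCommGroup E] [NormedSpace ℝ E] {K : ℝ}
    (hK : ∀ y, |eta y| ≤ K) {u : Space → E} (hu : Continuous u) (δ : ℝ) (x : Space) :
    ‖avg δ u x‖ ≤ K * bsum δ (fun z => ‖u z‖) x := by
  have e : avg δ u x = ∫ y in closedBall (0 : Space) 1, eta y • u (x - δ • y) :=
    (setIntegral_eq_integral_of_forall_compl_eq_zero fun y hy => by
      rw [eta_eq_zero (by simpa using hy), zero_smul]).symm
  rw [e, bsum, ← integral_const_mul]
  refine (norm_integral_le_integral_norm _).trans (integral_mono_of_nonneg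
    (Eventually.of_forall fun y => norm_nonneg _) ((bsum_integrable hu.norm δ x).const_mul K)
    (Eventually.of_forall fun y => ?_))
  simp only [norm_smul, Real.norm_eq_abs]
  exact mul_le_mul_of_nonneg_right (hK y) (norm_nonneg _)

theorem avg_dot4 {h : Space → Amp} (hh : Continuous h) {δ : ℝ} (hδ : 0 < δ) (x : Space) (e : Amp) :
    dot4 (avg δ h x) e =
      ∫ z, dot4 (h z) ((((δ ^ 3)⁻¹ * eta (δ⁻¹ • (x - z)) : ℝ) : ℂ) • e) := by
  let L : Amp →L[ℝ] ℂ := LinearMap.toContinuousLinearMap
    { toFun := fun a => dot4 a e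
      map_add' := fun a b => dot4_add_left a b e
      map_smul' := fun c a => by
        simp [dot4, bdot, Fin.sum_univ_three, Complex.real_smul]; ring }
  show L (avg δ h x) = _
  rw [← avg_clm L hh]
  set g : Space → ℂ := fun z => eta (δ⁻¹ • z) • L (h (x - z)) with hg
  have h1 : avg δ (fun z => L (h z)) x = ∫ y, g (δ • y) := by
    simp only [avg, hg, smul_smul, inv_mul_cancel₀ hδ.ne', one_smul]
  rw [h1, Measure.integral_comp_smul volume g δ, ← integral_smul,
    ← integral_sub_left_eq_self (fun z => |(δ ^ Module.finrank ℝ Space)⁻¹| • g z) volume x]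
  refine integral_congr_ae (Eventually.of_forall fun z => ?_)
  simp only [hg, sub_sub_cancel, smul_smul, Module.finrank_fin_fun, dot4_smul_right]
  rw [abs_of_pos (by positivity), Complex.real_smul]
  rfl

end

end Vale.Agent.P136.Full.Solve
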