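import Mathlib
import Vale.Agent.P136.Full.Defs
import Vale.Agent.P136.Full.Solve.Amp
import Vale.Agent.P136.Full.Solve.Calc
import Vale.Agent.P136.Full.Solve.Oper
import Vale.Agent.P136.Full.Solve.Dual
import Vale.Agent.P136.Full.Solve.Moll

/-!
# P136: the commutator of the averages with a first order operator
-/

open MeasureTheory Filter Metric
open scoped Topology ContDiff ComplexConjugate

namespace Vale.Agent.P136.Full.Solve

noncomputable section

/-- The commutator of a coefficient with the average. -/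
def comm0 (B : Space → Amp →L[ℂ] Amp) (δ : ℝ) (v : Space → Amp) (x : Space) : Amp :=
  B x (avg δ v x) - avg δ (fun z => B z (v z)) x

/-- The commutator of the operator with the average. -/
def comm (K : Coeff) (τ δ : ℝ) (u : Space → Amp) (x : Space) : Amp :=
  (∑ i, comm0 (K.b i) δ (pd i u) x) + comm0 K.b0 δ u x + (τ : ℂ) • comm0 K.bt δ u x

theorem op_avg (θ : C3) (τ : ℝ) (K : Coeff) {u : Space → Amp} (hu : ContDiff ℝ ∞ u) (δ : ℝ)
    (x : Space) : op θ τ K (avg δ u) x = avg δ (op θ τ K u) x + comm K τ δ u x := by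
  have e1 : ∀ i, pd i (avg δ u) = avg δ (pd i u) := fun i => funext fun y => pd_avg hu δ i y
  have c0 : ∀ i, Continuous (pd i u) := continuous_pd hu
  have c1 : ∀ i, Continuous (pd i (pd i u)) := fun i => continuous_pd (contDiff_pd hu i) i
  have c2 : ∀ i, Continuous fun z => K.b i z (pd i u z) := fun i =>
    ((K.hb i).apply (contDiff_pd hu i)).continuous
  have c3 : Continuous fun z => K.b0 z (u z) := (K.hb0.apply hu).continuous
  have c4 : Continuous fun z => K.bt z (u z) := (K.hbt.apply hu).continuous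
  have e2 : op θ τ K u = fun z => (∑ i, pd i (pd i u) z) + (2 * (τ : ℂ)) • (∑ i, θ i • pd i u z) +
      (∑ i, K.b i z (pd i u z)) + K.b0 z (u z) + (τ : ℂ) • K.bt z (u z) := rfl
  have d1 : Continuous fun z => ∑ i, pd i (pd i u) z := continuous_finsetSum _ fun i _ => c1 i
  have d2 : Continuous fun z => (2 * (τ : ℂ)) • ∑ i, θ i • pd i u z :=
    ((contDiff_Dth hu θ).continuous).const_smul (2 * (τ : ℂ))
  have d3 : Continuous fun z => ∑ i, K.b i z (pd i u z) := continuous_finsetSum _ fun i _ => c2 i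
  have d4 : Continuous fun z => (τ : ℂ) • K.bt z (u z) := c4.const_smul (τ : ℂ)
  have d12 : Continuous fun z =>
      (∑ i, pd i (pd i u) z) + (2 * (τ : ℂ)) • ∑ i, θ i • pd i u z := d1.add d2
  have d123 : Continuous fun z => (∑ i, pd i (pd i u) z) +
      (2 * (τ : ℂ)) • (∑ i, θ i • pd i u z) + ∑ i, K.b i z (pd i u z) := d12.add d3
  have d1234 : Continuous fun z => (∑ i, pd i (pd i u) z) +
      (2 * (τ : ℂ)) • (∑ i, θ i • pd i u z) + (∑ i, K.b i z (pd i u z)) + K.b0 z (u z) :=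
    d123.add c3
  rw [e2, avg_add d1234 d4, avg_add d123 c3, avg_add d12 d3, avg_add d1 d2, avg_sum _ c1, avg_sum _ c2, avg_smulC, avg_smulC,
    avg_sum (u := fun i z => θ i • pd i u z) _ (fun i => (c0 i).const_smul (θ i))]
  simp only [op, comm, comm0, lap, Dth, e1, pd_avg (contDiff_pd hu _), avg_smulC, smul_sub,
    Finset.sum_sub_distrib]
  abel

theorem exists_clm_bound {B : Space → Amp →L[ℂ] Amp} (hB : SmoothC B) (r : ℝ) :
    ∃ L, 0 ≤ L ∧ ∀ z : Space, ‖z‖ ≤ r → ∀ w, ‖B z w‖ ≤ L * ‖w‖ := by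
  obtain ⟨L, hL⟩ :=
    (isCompact_closedBall (0 : Space) r).exists_bound_of_continuousOn hB.continuous.continuousOn
  exact ⟨max L 0, le_max_right _ _, fun z hz w => ((B z).le_opNorm w).trans
    (mul_le_mul_of_nonneg_right ((hL z (mem_closedBall_zero_iff.2 hz)).trans (le_max_left _ _))
      (norm_nonneg w))⟩

theorem exists_clm_lip {B : Space → Amp →L[ℂ] Amp} (hB : SmoothC B) (r : ℝ) :
    ∃ L, 0 ≤ L ∧ ∀ z z' : Space, ‖z‖ ≤ r → ‖z'‖ ≤ r → ∀ w,
      ‖B z w - B z' w‖ ≤ L * ‖w‖ * ‖z - z'‖ := by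
  have hlip : ∀ e, ∃ L, 0 ≤ L ∧ ∀ z z' : Space, ‖z‖ ≤ r → ‖z'‖ ≤ r →
      ‖B z e - B z' e‖ ≤ L * ‖z - z'‖ := by
    intro e
    obtain ⟨L, hL⟩ := (isCompact_closedBall (0 : Space) r).exists_bound_of_continuousOn
      ((hB e).continuous_fderiv (by simp)).continuousOn
    exact ⟨max L 0, le_max_right _ _, fun z z' hz hz' =>
      (convex_closedBall (0 : Space) r).norm_image_sub_le_of_norm_fderiv_le
        (fun x _ => (hB e).differentiable (by simp) x) (fun x hx => (hL x hx).trans (le_max_left _ _))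
        (mem_closedBall_zero_iff.2 hz') (mem_closedBall_zero_iff.2 hz)⟩
  choose L hL0 hL using hlip
  refine ⟨(∑ j, L (e1 j)) + L e2, add_nonneg (Finset.sum_nonneg fun j _ => hL0 _) (hL0 _),
    fun z z' hz hz' w => ?_⟩
  rw [clm_expand (B z) w, clm_expand (B z') w, add_sub_add_comm, ← Finset.sum_sub_distrib]
  simp only [← smul_sub]
  refine (norm_add_le _ _).trans ?_
  rw [add_mul, add_mul, Finset.sum_mul, Finset.sum_mul]
  refine add_le_add ((norm_sum_le _ _).trans (Finset.sum_le_sum fun j _ => ?_)) ?_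
  · rw [norm_smul, mul_assoc, mul_left_comm]
    exact mul_le_mul ((norm_le_pi_norm w.1 j).trans (norm_fst_le w)) (hL _ z z' hz hz')
      (norm_nonneg _) (norm_nonneg _)
  · rw [norm_smul, mul_assoc, mul_left_comm]
    exact mul_le_mul (norm_snd_le w) (hL _ z z' hz hz') (norm_nonneg _) (norm_nonneg _)

theorem norm_sub_smul_le {x y : Space} {δ r : ℝ} (h0 : 0 ≤ δ) (h1 : δ ≤ 1) (hx : ‖x‖ ≤ r)
    (hy : ‖y‖ ≤ 1) : ‖x - δ • y‖ ≤ r + 1 := by
  refine (norm_sub_le _ _).trans (add_le_add hx ?_)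
  rw [norm_smul, Real.norm_eq_abs, abs_of_nonneg h0]
  exact mul_le_one₀ h1 (norm_nonneg _) hy

theorem norm_avg_le' {K C : ℝ} (hK : ∀ y, |eta y| ≤ K) {δ r : ℝ} (h0 : 0 ≤ δ) (h1 : δ ≤ 1)
    {x : Space} (hx : ‖x‖ ≤ r) {f : Space → Amp} {u : Space → Amp} (hu : Continuous u)
    (hf : ∀ z, ‖z‖ ≤ r + 1 → ‖f z‖ ≤ C * ‖u z‖) :
    ‖avg δ f x‖ ≤ K * C * bsum δ (fun z => ‖u z‖) x := by
  have e : avg δ f x = ∫ y in closedBall (0 : Space) 1, eta y • f (x - δ • y) :=
    (setIntegral_eq_integral_of_forall_compl_eq_zero fun y hy => by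
      rw [eta_eq_zero (by simpa using hy), zero_smul]).symm
  rw [e, bsum, ← integral_const_mul]
  refine (norm_integral_le_integral_norm _).trans (integral_mono_of_nonneg
    (Eventually.of_forall fun y => norm_nonneg _) ((bsum_integrable hu.norm δ x).const_mul (K * C))
    ?_)
  filter_upwards [ae_restrict_mem measurableSet_closedBall] with y hy
  simp only [norm_smul, Real.norm_eq_abs, mul_assoc]
  exact mul_le_mul (hK y) (hf _ (norm_sub_smul_le h0 h1 hx (mem_closedBall_zero_iff.1 hy)))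
    (norm_nonneg _) ((abs_nonneg _).trans (hK y))

theorem comm0_bound {B : Space → Amp →L[ℂ] Amp} (hB : SmoothC B) (r : ℝ) :
    ∃ C, 0 ≤ C ∧ ∀ δ : ℝ, 0 ≤ δ → δ ≤ 1 → ∀ x : Space, ‖x‖ ≤ r → ∀ u : Space → Amp,
      Continuous u → ‖comm0 B δ u x‖ ≤ C * bsum δ (fun z => ‖u z‖) x := by
  obtain ⟨K, hK0, hK⟩ := exists_eta_bound
  obtain ⟨L, hL0, hL⟩ := exists_clm_bound hB (r + 1)
  refine ⟨L * K + K * L, by positivity, fun δ h0 h1 x hx u hu => ?_⟩
  rw [comm0, add_mul]
  refine (norm_sub_le _ _).trans (add_le_add ?_ ?_)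
  · rw [mul_assoc]
    exact (hL x (by linarith) _).trans
      (mul_le_mul_of_nonneg_left (norm_avg_le (fun y => (hK y).1) hu δ x) hL0)
  · exact norm_avg_le' (fun y => (hK y).1) h0 h1 hx hu (fun z hz => hL z hz _)

theorem comm1_bound {B : Space → Amp →L[ℂ] Amp} (hB : SmoothC B) (r : ℝ) (i : Fin 3) :
    ∃ C, 0 ≤ C ∧ ∀ δ : ℝ, 0 < δ → δ ≤ 1 → ∀ x : Space, ‖x‖ ≤ r → ∀ u : Space → Amp,
      ContDiff ℝ ∞ u → ‖comm0 B δ (pd i u) x‖ ≤ C * bsum δ (fun z => ‖u z‖) x := by
  obtain ⟨K, hK0, hK⟩ := exists_eta_bound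
  obtain ⟨Ld, hLd0, hLd⟩ := exists_clm_bound (hB.deriv i) (r + 1)
  obtain ⟨L, hL0, hL⟩ := exists_clm_lip hB (r + 1)
  refine ⟨K * L + K * Ld, by positivity, fun δ h0 h1 x hx u hu => ?_⟩
  set f : Space → Amp := fun z => B x (u z) - B z (u z) with hf
  have hfs : ContDiff ℝ ∞ f :=
    (((B x).restrictScalars ℝ).contDiff.comp hu).sub (hB.apply hu)
  have hpd : ∀ z, pd i f z = B x (pd i u z) - B z (pd i u z) - dC i B z (u z) := fun z => by
    have g1 : Differentiable ℝ fun y => B x (u y) :=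
      smooth_diff (((B x).restrictScalars ℝ).contDiff.comp hu)
    have g2 : pd i (fun y => B x (u y)) z = B x (pd i u z) :=
      pd_clm ((B x).restrictScalars ℝ) (smooth_diff hu) i z
    rw [hf, pd_sub g1 (smooth_diff (hB.apply hu)), g2, hB.pd_apply hu, sub_add_eq_sub_sub]
  have hBx : avg δ (fun z => B x (pd i u z)) x = B x (avg δ (pd i u) x) :=
    avg_clm ((B x).restrictScalars ℝ) (continuous_pd hu i) δ x
  have e1 : comm0 B δ (pd i u) x =
      avg δ (pd i f) x + avg δ (fun z => dC i B z (u z)) x := by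
    have g1 : Continuous fun z => B x (pd i u z) := (B x).continuous.comp (continuous_pd hu i)
    rw [comm0, ← hBx, ← avg_sub g1 (hB.apply (contDiff_pd hu i)).continuous,
      ← avg_add (continuous_pd hfs i) ((hB.deriv i).apply hu).continuous]
    congr 1
    funext z
    rw [hpd, sub_add_cancel]
  set D : Space → Amp := fun y => fderiv ℝ eta y (Pi.single i 1) • f (x - δ • y) with hD
  have hH : ContDiff ℝ 1 fun y => eta y • f (x - δ • y) :=
    (eta_smooth.smul (hfs.comp (contDiff_const.sub (contDiff_id.const_smul δ)))).of_le (by simp)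
  have hHd : ∀ y, pd i (fun y => eta y • f (x - δ • y)) y =
      D y - δ • (eta y • pd i f (x - δ • y)) := by
    intro y
    have hin : HasFDerivAt (fun y : Space => x - δ • y) (-(δ • ContinuousLinearMap.id ℝ Space)) y :=
      ((hasFDerivAt_id y).const_smul δ).const_sub x
    have hcomp := ((hfs.differentiable (by simp) (x - δ • y)).hasFDerivAt).comp y hin
    have := ((eta_smooth.differentiable (by simp) y).hasFDerivAt.fun_smul hcomp).fderiv
    simp only [Function.comp_def] at this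
    simp only [pd, this, hD]
    simp [smul_comm δ]
    abel
  have hDi : Integrable D :=
    (((eta_smooth.continuous_fderiv (by simp)).clm_apply continuous_const).smul
      (hfs.continuous.comp (by fun_prop))).integrable_of_hasCompactSupport
      ((bump.hasCompactSupport_normed.fderiv_apply ℝ _).smul_right)
  have h2 := integral_pd hH (bump.hasCompactSupport_normed.smul_right) i
  simp only [hHd] at h2
  have i2 := avg_integrable (continuous_pd hfs i) δ x
  have i3 : Integrable fun y => δ • eta y • pd i f (x - δ • y) := i2.smul δ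
  rw [integral_sub hDi i3, integral_smul, sub_eq_zero] at h2
  have e2 : avg δ (pd i f) x = δ⁻¹ • ∫ y, D y := by
    rw [avg, h2, smul_smul, inv_mul_cancel₀ h0.ne', one_smul]
  have hD1 : ‖∫ y, D y‖ ≤ K * L * δ * bsum δ (fun z => ‖u z‖) x := by
    rw [← setIntegral_eq_integral_of_forall_compl_eq_zero (s := closedBall (0 : Space) 1)
      fun y hy => by
        have : fderiv ℝ eta y = 0 := by
          refine Filter.EventuallyEq.fderiv_eq (f := fun _ : Space => (0 : ℝ)) ?_ |>.trans (by simp)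
          filter_upwards [isClosed_closedBall.isOpen_compl.mem_nhds hy] with z hz
          exact eta_eq_zero (by simpa using hz)
        simp [hD, this]]
    rw [bsum, ← integral_const_mul]
    refine (norm_integral_le_integral_norm _).trans (integral_mono_of_nonneg
      (Eventually.of_forall fun y => norm_nonneg _)
      ((bsum_integrable hu.continuous.norm δ x).const_mul (K * L * δ)) ?_)
    filter_upwards [ae_restrict_mem measurableSet_closedBall] with y hy
    have hz := norm_sub_smul_le h0.le h1 hx (mem_closedBall_zero_iff.1 hy)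
    have hy1 : ‖x - (x - δ • y)‖ ≤ δ := by
      rw [sub_sub_cancel, norm_smul, Real.norm_eq_abs, abs_of_pos h0]
      exact mul_le_of_le_one_right h0.le (mem_closedBall_zero_iff.1 hy)
    have hf1 : ‖f (x - δ • y)‖ ≤ L * ‖u (x - δ • y)‖ * δ :=
      (hL x _ (by linarith) hz _).trans (mul_le_mul_of_nonneg_left hy1 (by positivity))
    simp only [hD, norm_smul, Real.norm_eq_abs]
    calc |fderiv ℝ eta y (Pi.single i 1)| * ‖f (x - δ • y)‖ ≤
          K * (L * ‖u (x - δ • y)‖ * δ) :=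
        mul_le_mul ((hK y).2 i) hf1 (norm_nonneg _) hK0
      _ = K * L * δ * ‖u (x - δ • y)‖ := by ring
  rw [e1, add_mul]
  refine (norm_add_le _ _).trans (add_le_add ?_
    (norm_avg_le' (fun y => (hK y).1) h0.le h1 hx hu.continuous (fun z hz => hLd z hz _)))
  rw [e2, norm_smul, norm_inv, Real.norm_eq_abs, abs_of_pos h0]
  calc δ⁻¹ * ‖∫ y, D y‖ ≤ δ⁻¹ * (K * L * δ * bsum δ (fun z => ‖u z‖) x) :=
        mul_le_mul_of_nonneg_left hD1 (inv_nonneg.2 h0.le)
    _ = K * L * bsum δ (fun z => ‖u z‖) x := by field_simp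

theorem ampSqr_L2_le {R C : ℝ} {u f : Space → Amp} (hu : IsTest R u)
    (δ : ℝ) {r : ℝ} (h : ∀ x, ‖x‖ ≤ r → ‖f x‖ ≤ C * bsum δ (fun z => ‖u z‖) x) :
    ∫ x in ball (0 : Space) r, ampSqr (f x) ≤ 4 * C ^ 2 * vol1 ^ 2 * ∫ x, ampSqr (u x) := by
  have hs : HasCompactSupport u := hasCompactSupport_of_bound hu.2
  have h1 := integral_bsum_sq hu.1.continuous.norm hs.norm δ (ball (0 : Space) r)
  have hb : Continuous fun x => bsum δ (fun z => ‖u z‖) x :=
    continuous_parametric_integral_of_continuous (μ := volume)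
      (by have := hu.1.continuous; fun_prop) (isCompact_closedBall (0 : Space) 1)
  calc ∫ x in ball (0 : Space) r, ampSqr (f x)
      ≤ ∫ x in ball (0 : Space) r, 4 * C ^ 2 * bsum δ (fun z => ‖u z‖) x ^ 2 := by
        refine integral_mono_of_nonneg (Eventually.of_forall fun x => ampSqr_nonneg _)
          (((hb.pow 2).const_mul _).continuousOn.integrableOn_compact
            (isCompact_closedBall (0 : Space) r) |>.mono_set ball_subset_closedBall) ?_
        filter_upwards [ae_restrict_mem measurableSet_ball] with x hx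
        refine (ampSqr_le _).trans ?_
        rw [mul_assoc, ← mul_pow]
        exact mul_le_mul_of_nonneg_left (pow_le_pow_left₀ (norm_nonneg _)
          (h x (le_of_lt (mem_ball_zero_iff.1 hx))) 2) (by norm_num)
    _ ≤ 4 * C ^ 2 * (vol1 ^ 2 * ∫ x, ‖u x‖ ^ 2) := by
        rw [integral_const_mul]
        exact mul_le_mul_of_nonneg_left h1 (by positivity)
    _ ≤ 4 * C ^ 2 * vol1 ^ 2 * ∫ x, ampSqr (u x) := by
        rw [← mul_assoc]
        refine mul_le_mul_of_nonneg_left ?_ (by positivity)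
        exact integral_mono_of_nonneg (Eventually.of_forall fun x => sq_nonneg _)
          (integrable_of_bound (continuous_ampSqr hu.1.continuous) (R := R) fun x hx => by
            simp [hu.2 x hx, ampSqr_zero])
          (Eventually.of_forall fun x => norm_sq_le_ampSqr _)

theorem comm_L2 (K : Coeff) (τ r R : ℝ) :
    ∃ C, 0 ≤ C ∧ ∀ δ : ℝ, 0 < δ → δ ≤ 1 → ∀ u, IsTest R u →
      ∫ x in ball (0 : Space) r, ampSqr (comm K τ δ u x) ≤ C * ∫ x, ampSqr (u x) := by
  choose c hc0 hc using fun i => comm1_bound (K.hb i) r i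
  obtain ⟨c0, hc00, hc0'⟩ := comm0_bound K.hb0 r
  obtain ⟨ct, hct0, hct⟩ := comm0_bound K.hbt r
  refine ⟨4 * ((∑ i, c i) + c0 + |τ| * ct) ^ 2 * vol1 ^ 2, by positivity,
    fun δ h0 h1 u hu => ampSqr_L2_le hu δ fun x hx => ?_⟩
  rw [comm, add_mul, add_mul, Finset.sum_mul]
  refine (norm_add₃_le).trans (add_le_add (add_le_add ((norm_sum_le _ _).trans
    (Finset.sum_le_sum fun i _ => hc i δ h0 h1 x hx u hu.1))
    (hc0' δ h0.le h1 x hx u hu.1.continuous)) ?_)
  rw [norm_smul, Complex.norm_real, Real.norm_eq_abs, mul_assoc]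
  exact mul_le_mul_of_nonneg_left (hct δ h0.le h1 x hx u hu.1.continuous) (abs_nonneg τ)

theorem comm0_tendsto {B : Space → Amp →L[ℂ] Amp} (hB : SmoothC B) {v : Space → Amp}
    (hv : ContDiff ℝ ∞ v) (r : ℝ) {ε : ℝ} (hε : 0 < ε) :
    ∃ δ₀ > 0, ∀ δ : ℝ, 0 ≤ δ → δ ≤ δ₀ → ∀ x : Space, ‖x‖ ≤ r → ‖comm0 B δ v x‖ ≤ ε := by
  obtain ⟨L, hL0, hL⟩ := exists_clm_bound hB r
  obtain ⟨d₁, hd₁, h₁⟩ := avg_tendsto hv.continuous r
    (show 0 < ε / 2 / (L + 1) by positivity)
  obtain ⟨d₂, hd₂, h₂⟩ := avg_tendsto (hB.apply hv).continuous r (half_pos hε)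
  refine ⟨min d₁ d₂, lt_min hd₁ hd₂, fun δ h0 hδ x hx => ?_⟩
  have a1 : ‖avg δ v x - v x‖ ≤ ε / 2 / (L + 1) := h₁ δ h0 (hδ.trans (min_le_left _ _)) x hx
  have a2 : ‖avg δ (fun z => B z (v z)) x - B x (v x)‖ ≤ ε / 2 :=
    h₂ δ h0 (hδ.trans (min_le_right _ _)) x hx
  have e : comm0 B δ v x =
      B x (avg δ v x - v x) - (avg δ (fun z => B z (v z)) x - B x (v x)) := by
    rw [comm0, map_sub]; abel
  rw [e]
  refine (norm_sub_le _ _).trans ?_
  have : L * (ε / 2 / (L + 1)) ≤ ε / 2 := by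
    rw [mul_div_assoc', div_le_iff₀ (by positivity)]; nlinarith
  linarith [(hL x hx (avg δ v x - v x)).trans (mul_le_mul_of_nonneg_left a1 hL0)]

theorem comm_tendsto (K : Coeff) (τ r : ℝ) {u : Space → Amp} (hu : ContDiff ℝ ∞ u) {ε : ℝ}
    (hε : 0 < ε) :
    ∃ δ₀ > 0, ∀ δ : ℝ, 0 ≤ δ → δ ≤ δ₀ → ∀ x : Space, ‖x‖ ≤ r → ‖comm K τ δ u x‖ ≤ ε := by
  have hs : (0 : ℝ) < ε / (5 * (|τ| + 1)) := by positivity
  choose d hd hd' using fun i => comm0_tendsto (K.hb i) (contDiff_pd hu i) r hs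
  obtain ⟨d0, hd0, hd0'⟩ := comm0_tendsto K.hb0 hu r hs
  obtain ⟨dt, hdt, hdt'⟩ := comm0_tendsto K.hbt hu r hs
  refine ⟨min (min (d 0) (d 1)) (min (d 2) (min d0 dt)), by
    simp only [gt_iff_lt, lt_min_iff]
    exact ⟨⟨hd 0, hd 1⟩, hd 2, hd0, hdt⟩, fun δ h0 hδ x hx => ?_⟩
  simp only [le_min_iff] at hδ
  obtain ⟨⟨l0, l1⟩, l2, l3, l4⟩ := hδ
  have b0 := hd' 0 δ h0 l0 x hx
  have b1 := hd' 1 δ h0 l1 x hx
  have b2 := hd' 2 δ h0 l2 x hx
  have b3 := hd0' δ h0 l3 x hx
  have b4 := mul_le_mul_of_nonneg_left (hdt' δ h0 l4 x hx) (abs_nonneg τ)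
  rw [comm, Fin.sum_univ_three]
  refine norm_add₃_le.trans ?_
  rw [norm_smul, Complex.norm_real, Real.norm_eq_abs]
  have h3 : ‖comm0 (K.b 0) δ (pd 0 u) x + comm0 (K.b 1) δ (pd 1 u) x +
      comm0 (K.b 2) δ (pd 2 u) x‖ ≤ 3 * (ε / (5 * (|τ| + 1))) :=
    norm_add₃_le.trans (by linarith)
  have e : 5 * (|τ| + 1) * (ε / (5 * (|τ| + 1))) = ε := mul_div_cancel₀ _ (by positivity)
  nlinarith [mul_nonneg (abs_nonneg τ) hs.le]

end

end Vale.Agent.P136.Full.Solve
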