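import Mathlib
import Vale.Agent.P136.Full.Defs
import Vale.Agent.P136.Full.Solve.Amp
import Vale.Agent.P136.Full.Solve.Calc
import Vale.Agent.P136.Full.Solve.Oper
import Vale.Agent.P136.Full.Solve.Dual
import Vale.Agent.P136.Full.Solve.Commutator

/-!
# P136: interior estimates for smooth approximate solutions
-/

open MeasureTheory Filter Metric
open scoped Topology ContDiff ComplexConjugate

namespace Vale.Agent.P136.Full.Solve

noncomputable section

/-- Squared size of the gradient. -/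
def grad2 (z : Space → Amp) (x : Space) : ℝ := ∑ i, ampSqr (pd i z x)

theorem grad2_nonneg (z : Space → Amp) (x : Space) : 0 ≤ grad2 z x :=
  Finset.sum_nonneg fun _ _ => ampSqr_nonneg _

/-- The divergence part of the right hand side. -/
def divG (G : Fin 3 → Space → C3) (x : Space) : Amp := ∑ i, pd i (fun y => ((G i y, 0) : Amp)) x

/-- The density of the data and of the solution. -/
def dens (θ : C3) (τ : ℝ) (K : Coeff) (z : Space → Amp) (G : Fin 3 → Space → C3) (x : Space) : ℝ :=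
  ampSqr (z x) + ampSqr (op θ τ K z x - divG G x) + ∑ i, ampSqr ((G i x, 0) : Amp)

theorem dens_nonneg (θ : C3) (τ : ℝ) (K : Coeff) (z : Space → Amp) (G : Fin 3 → Space → C3)
    (x : Space) : 0 ≤ dens θ τ K z G x :=
  add_nonneg (add_nonneg (ampSqr_nonneg _) (ampSqr_nonneg _))
    (Finset.sum_nonneg fun _ _ => ampSqr_nonneg _)

theorem lap_sub_bound (θ : C3) (K : Coeff) (r : ℝ) :
    ∃ c, 0 ≤ c ∧ ∀ τ : ℝ, 1 ≤ τ → ∀ (z : Space → Amp) (G : Fin 3 → Space → C3) (x : Space),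
      ‖x‖ ≤ r → ampSqr (lap z x - divG G x) ≤
        2 * ampSqr (op θ τ K z x - divG G x) + c * τ ^ 2 * (grad2 z x + ampSqr (z x)) := by
  choose L hL0 hL using fun i => exists_clm_bound (K.hb i) r
  obtain ⟨L0, hL00, hL0'⟩ := exists_clm_bound K.hb0 r
  obtain ⟨Lt, hLt0, hLt⟩ := exists_clm_bound K.hbt r
  set a := 2 * ‖θ‖ + (∑ i, L i) + L0 + Lt with ha
  refine ⟨32 * a ^ 2, by positivity, fun τ hτ z G x hx => ?_⟩
  set q : Amp := (2 * (τ : ℂ)) • Dth θ z x + (∑ i, K.b i x (pd i z x)) + K.b0 x (z x) +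
    (τ : ℂ) • K.bt x (z x) with hq
  have e : lap z x - divG G x = (op θ τ K z x - divG G x) + -q := by
    simp only [hq, op]; abel
  rw [e]
  refine (ampSqr_add_le _ _).trans (add_le_add le_rfl ?_)
  rw [ampSqr_neg]
  set n : Fin 3 → ℝ := fun i => ‖pd i z x‖
  set S := n 0 + n 1 + n 2 + ‖z x‖ with hS
  have hn : ∀ i, 0 ≤ n i := fun i => norm_nonneg _
  have hz0 : 0 ≤ ‖z x‖ := norm_nonneg _
  have hτn : ‖(τ : ℂ)‖ = τ := by
    rw [Complex.norm_real, Real.norm_eq_abs, abs_of_pos (by linarith)]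
  have h1 : ‖(2 * (τ : ℂ)) • Dth θ z x‖ ≤ τ * (2 * ‖θ‖) * S := by
    rw [norm_smul, norm_mul, Complex.norm_two, hτn]
    have hD : ‖Dth θ z x‖ ≤ ‖θ‖ * S := by
      refine (norm_sum_le _ _).trans ?_
      simp only [Fin.sum_univ_three, norm_smul]
      nlinarith [mul_le_mul_of_nonneg_right (norm_le_pi_norm θ 0) (hn 0),
        mul_le_mul_of_nonneg_right (norm_le_pi_norm θ 1) (hn 1),
        mul_le_mul_of_nonneg_right (norm_le_pi_norm θ 2) (hn 2),
        mul_nonneg (norm_nonneg θ) hz0]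
    nlinarith
  have h2 : ‖∑ i, K.b i x (pd i z x)‖ ≤ τ * (∑ i, L i) * S := by
    refine (norm_sum_le _ _).trans ?_
    have hS0 : 0 ≤ S := by rw [hS]; linarith [hn 0, hn 1, hn 2]
    calc ∑ i, ‖K.b i x (pd i z x)‖ ≤ ∑ i, L i * n i :=
          Finset.sum_le_sum fun i _ => hL i x hx _
      _ ≤ ∑ i, L i * S := by
          refine Finset.sum_le_sum fun i _ => mul_le_mul_of_nonneg_left ?_ (hL0 i)
          rw [hS]; fin_cases i <;> simp <;> linarith [hn 0, hn 1, hn 2]
      _ = (∑ i, L i) * S := by rw [Finset.sum_mul]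
      _ ≤ τ * (∑ i, L i) * S := by
          rw [mul_assoc]
          exact le_mul_of_one_le_left
            (mul_nonneg (Finset.sum_nonneg fun i _ => hL0 i) hS0) hτ
  have h3 : ‖K.b0 x (z x)‖ ≤ τ * L0 * S := by
    refine (hL0' x hx _).trans ?_
    have : L0 * ‖z x‖ ≤ L0 * S := mul_le_mul_of_nonneg_left (by linarith [hn 0, hn 1, hn 2]) hL00
    nlinarith [mul_nonneg hL00 hz0]
  have h4 : ‖(τ : ℂ) • K.bt x (z x)‖ ≤ τ * Lt * S := by
    rw [norm_smul, hτn, mul_assoc]
    refine mul_le_mul_of_nonneg_left ((hLt x hx _).trans ?_) (by linarith)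
    exact mul_le_mul_of_nonneg_left (by linarith [hn 0, hn 1, hn 2]) hLt0
  have hqn : ‖q‖ ≤ τ * a * S := by
    refine norm_add₃_le.trans ?_ |>.trans (le_of_eq (by rw [ha]; ring :
      τ * (2 * ‖θ‖) * S + τ * (∑ i, L i) * S + τ * L0 * S + τ * Lt * S = τ * a * S))
    linarith [norm_add_le ((2 * (τ : ℂ)) • Dth θ z x) (∑ i, K.b i x (pd i z x))]
  have hS2 : S ^ 2 ≤ 4 * (grad2 z x + ampSqr (z x)) := by
    simp only [hS, grad2, Fin.sum_univ_three]
    nlinarith [norm_sq_le_ampSqr (pd 0 z x), norm_sq_le_ampSqr (pd 1 z x),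
      norm_sq_le_ampSqr (pd 2 z x), norm_sq_le_ampSqr (z x), sq_nonneg (n 0 - n 1),
      sq_nonneg (n 0 - n 2), sq_nonneg (n 1 - n 2), sq_nonneg (n 0 - ‖z x‖),
      sq_nonneg (n 1 - ‖z x‖), sq_nonneg (n 2 - ‖z x‖)]
  calc 2 * ampSqr q ≤ 2 * (4 * ‖q‖ ^ 2) := mul_le_mul_of_nonneg_left (ampSqr_le q) (by norm_num)
    _ ≤ 2 * (4 * (τ * a * S) ^ 2) := by gcongr
    _ = 8 * (τ * a) ^ 2 * S ^ 2 := by ring
    _ ≤ 8 * (τ * a) ^ 2 * (4 * (grad2 z x + ampSqr (z x))) :=
        mul_le_mul_of_nonneg_left hS2 (by positivity)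
    _ = 32 * a ^ 2 * τ ^ 2 * (grad2 z x + ampSqr (z x)) := by ring

/-- Conjugation as a real linear map. -/
def cjR : Amp →L[ℝ] Amp :=
  LinearMap.toContinuousLinearMap
    { toFun := cj
      map_add' := fun a b => by ext <;> simp [cj]
      map_smul' := fun c a => by ext <;> simp [cj, Complex.real_smul] }

theorem pd_cj {z : Space → Amp} (hz : Differentiable ℝ z) (i : Fin 3) (x : Space) :
    pd i (fun y => cj (z y)) x = cj (pd i z x) := pd_clm cjR hz i x

theorem integrableOn_ball' {f : Space → ℝ} (hf : Continuous f) (r : ℝ) :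
    IntegrableOn f (ball (0 : Space) r) :=
  (hf.continuousOn.integrableOn_compact (isCompact_closedBall (0 : Space) r)).mono_set
    ball_subset_closedBall

theorem continuous_dens (θ : C3) (τ : ℝ) (K : Coeff) {z : Space → Amp} (hz : ContDiff ℝ ∞ z)
    {G : Fin 3 → Space → C3} (hG : ∀ i, ContDiff ℝ ∞ (G i)) :
    Continuous (dens θ τ K z G) := by
  have h : Continuous fun x => op θ τ K z x - divG G x := (contDiff_op θ τ K hz).continuous.sub
    (continuous_finsetSum _ fun i _ => continuous_pd ((hG i).prodMk contDiff_const) i)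
  exact ((continuous_ampSqr hz.continuous).add (continuous_ampSqr h)).add
    (continuous_finsetSum _ fun i _ => continuous_ampSqr ((hG i).continuous.prodMk continuous_const))

/-- The energy estimate. -/
theorem energy_bound (θ : C3) (K : Coeff) (χ : ContDiffBump (0 : Space)) {s : ℝ}
    (hs : χ.rOut < s) :
    ∃ C, 0 ≤ C ∧ ∀ τ : ℝ, 1 ≤ τ → ∀ z : Space → Amp, ContDiff ℝ ∞ z →
      ∀ G : Fin 3 → Space → C3, (∀ i, ContDiff ℝ ∞ (G i)) →
        ∫ x, χ x ^ 2 * grad2 z x ≤
          C * τ ^ 2 * ∫ x in ball (0 : Space) s, dens θ τ K z G x := by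
  obtain ⟨c, hc0, hc⟩ := lap_sub_bound θ K s
  obtain ⟨L, hL⟩ := ((χ.contDiff (n := 1)).continuous_fderiv one_ne_zero).bounded_above_of_compact_support
    (χ.hasCompactSupport.fderiv (𝕜 := ℝ))
  have hL0 : 0 ≤ L := (norm_nonneg _).trans (hL 0)
  refine ⟨2 * (8 * c + 200 * L ^ 2 + 9), by positivity, fun τ hτ z hz G hG => ?_⟩
  set Φ : Fin 3 → Space → ℂ := fun i y =>
    ((χ y ^ 2 : ℝ) : ℂ) * dot4 (cj (z y)) (pd i z y - ((G i y, 0) : Amp)) with hΦ
  have hχc : ContDiff ℝ ∞ fun y => ((χ y ^ 2 : ℝ) : ℂ) :=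
    Complex.ofRealCLM.contDiff.comp (χ.contDiff.pow 2)
  have hg : ∀ i, ContDiff ℝ ∞ fun y => pd i z y - ((G i y, 0) : Amp) := fun i =>
    (contDiff_pd hz i).sub ((hG i).prodMk contDiff_const)
  have hzc : ContDiff ℝ ∞ fun y => cj (z y) := contDiff_cj hz
  have hd : ∀ i, ContDiff ℝ ∞ fun y => dot4 (cj (z y)) (pd i z y - ((G i y, 0) : Amp)) :=
    fun i => contDiff_dot4 hzc (hg i)
  have hΦs : ∀ i, ContDiff ℝ ∞ (Φ i) := fun i => hχc.mul (hd i)
  have hχ0 : ∀ y, χ.rOut < ‖y‖ → χ y = 0 := fun y hy =>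
    χ.zero_of_le_dist (by rw [dist_zero_right]; exact hy.le)
  have hΦ0 : ∀ i y, χ.rOut < ‖y‖ → Φ i y = 0 := fun i y hy => by simp [hΦ, hχ0 y hy]
  have hre : ∀ i y, (pd i (Φ i) y).re =
      χ y ^ 2 * (ampSqr (pd i z y) - rdot (pd i z y) (G i y, 0) +
        rdot (z y) (pd i (pd i z) y - pd i (fun w => ((G i w, 0) : Amp)) y)) +
      2 * χ y * fderiv ℝ χ y (Pi.single i 1) * rdot (z y) (pd i z y - ((G i y, 0) : Amp)) := by
    intro i y
    have e : pd i (fun w => ((χ w ^ 2 : ℝ) : ℂ)) y =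
        ((2 * χ y * fderiv ℝ χ y (Pi.single i 1) : ℝ) : ℂ) := by
      have h := (Complex.ofRealCLM.hasFDerivAt.comp y
        (((χ.contDiff (n := 1)).differentiable one_ne_zero y).hasFDerivAt.pow 2)).fderiv
      simp only [Function.comp_def, Complex.ofRealCLM_apply, ← Complex.ofReal_pow] at h
      simp only [pd, h]
      simp
    simp only [hΦ]
    rw [pd_mul (smooth_diff hχc) (smooth_diff (hd i)), pd_dot4 hzc (hg i), pd_cj (smooth_diff hz),
      pd_sub (smooth_diff (contDiff_pd hz i)) (smooth_diff ((hG i).prodMk contDiff_const)), e,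
      Complex.add_re, Complex.re_ofReal_mul, Complex.re_ofReal_mul, Complex.add_re]
    simp only [← rdot.eq_1, rdot_sub_right, ← ampSqr_eq_rdot]
  have hint : ∀ i, Integrable fun y => (pd i (Φ i) y).re := fun i =>
    integrable_of_bound (Complex.continuous_re.comp (continuous_pd (hΦs i) i)) (R := χ.rOut)
      fun y hy => by simp [pd_eq_zero_outside (hΦ0 i) i hy]
  have hI0 : ∫ y, ∑ i, (pd i (Φ i) y).re = 0 := by
    rw [integral_finsetSum _ fun i _ => hint i]
    refine Finset.sum_eq_zero fun i _ => ?_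
    have hi : Integrable (pd i (Φ i)) := integrable_of_bound (continuous_pd (hΦs i) i) (R := χ.rOut)
      fun y hy => pd_eq_zero_outside (hΦ0 i) i hy
    have h := integral_re hi
    rw [integral_pd ((hΦs i).of_le (by simp)) (hasCompactSupport_of_bound (hΦ0 i))] at h
    simpa using h
  set P : Space → ℝ := fun y => χ y ^ 2 * grad2 z y with hP
  have hPi : Integrable P := integrable_of_bound ((χ.continuous.pow 2).mul
    (continuous_finsetSum _ fun i _ => continuous_ampSqr (continuous_pd hz i))) (R := χ.rOut)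
    fun y hy => by simp [hP, hχ0 y hy]
  set C1 := 8 * c + 200 * L ^ 2 + 9
  have hIi : Integrable ((ball (0 : Space) s).indicator (dens θ τ K z G)) :=
    (integrable_indicator_iff measurableSet_ball).2 (integrableOn_ball' (continuous_dens θ τ K hz hG) s)
  have key : ∀ y, P y ≤ (∑ i, (pd i (Φ i) y).re) + 1 / 2 * P y +
      C1 * τ ^ 2 * (ball (0 : Space) s).indicator (dens θ τ K z G) y := by
    intro y
    by_cases hy : y ∈ ball (0 : Space) s
    swap
    · have : χ.rOut < ‖y‖ := hs.trans_le (by simpa using hy)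
      simp [hP, hχ0 y this, pd_eq_zero_outside (hΦ0 _) _ this, Set.indicator_of_notMem hy]
    rw [Set.indicator_of_mem hy]
    have hx : ‖y‖ ≤ s := (mem_ball_zero_iff.1 hy).le
    have hW := hc τ hτ z G y hx
    have hχ1 : χ y ^ 2 ≤ 1 := pow_le_one₀ χ.nonneg χ.le_one
    have hl : ∀ i, |fderiv ℝ χ y (Pi.single i 1)| ≤ L := fun i => by
      refine le_trans ?_ (hL y)
      have h := (fderiv ℝ χ y).le_opNorm (Pi.single i (1 : ℝ))
      rw [Pi.norm_single, norm_one, mul_one] at h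
      exact h
    simp only [hre]
    set W := lap z y - divG G y with hWdef
    have hsum : (∑ i, rdot (z y) (pd i (pd i z) y - pd i (fun w => ((G i w, 0) : Amp)) y)) =
        rdot (z y) W := by
      simp only [hWdef, lap, divG, Fin.sum_univ_three, rdot_add_right, rdot_sub_right]
      ring
    have hs1 : 0 < 8 * (c + 1) * τ ^ 2 := by positivity
    have b1 := abs_le.1 (abs_rdot_le (z y) W _ hs1)
    have b2 := fun i => abs_le.1 (abs_rdot_le (pd i z y) ((G i y, 0) : Amp) (1 / 4) (by norm_num))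
    have b3 : ∀ i, |2 * χ y * fderiv ℝ χ y (Pi.single i 1) *
        rdot (z y) (pd i z y - ((G i y, 0) : Amp))| ≤
        32 * L ^ 2 * ampSqr (z y) + χ y ^ 2 * (ampSqr (pd i z y) + ampSqr ((G i y, 0) : Amp)) / 8 := by
      intro i
      set l := fderiv ℝ χ y (Pi.single i 1)
      have e : 2 * χ y * l * rdot (z y) (pd i z y - ((G i y, 0) : Amp)) =
          2 * rdot ((l : ℂ) • z y) ((χ y : ℂ) • (pd i z y - ((G i y, 0) : Amp))) := by
        rw [rdot_smul_right, rdot_comm ((l : ℂ) • z y), rdot_smul_right, rdot_comm _ (z y)]; ring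
      rw [e, abs_mul, abs_two]
      have h := abs_rdot_le ((l : ℂ) • z y) ((χ y : ℂ) • (pd i z y - ((G i y, 0) : Amp))) 16
        (by norm_num)
      simp only [ampSqr_smul, Complex.norm_real, Real.norm_eq_abs, sq_abs] at h
      have hll : l ^ 2 ≤ L ^ 2 := sq_le_sq' (abs_le.1 (hl i)).1 (abs_le.1 (hl i)).2
      have hsub : ampSqr (pd i z y - ((G i y, 0) : Amp)) ≤
          2 * ampSqr (pd i z y) + 2 * ampSqr ((G i y, 0) : Amp) := by
        have h2 := ampSqr_add_le (pd i z y) (-((G i y, 0) : Amp))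
        rwa [ampSqr_neg, ← sub_eq_add_neg] at h2
      nlinarith [mul_le_mul_of_nonneg_right hll (ampSqr_nonneg (z y)),
        mul_le_mul_of_nonneg_left hsub (sq_nonneg (χ y)),
        mul_nonneg (sq_nonneg L) (ampSqr_nonneg (z y))]
    have hW' : ampSqr W / (8 * (c + 1) * τ ^ 2) ≤
        ampSqr (op θ τ K z y - divG G y) / 4 + (grad2 z y + ampSqr (z y)) / 8 := by
      rw [div_le_iff₀ hs1]
      nlinarith [mul_nonneg (add_nonneg hc0 zero_le_one)
          (mul_nonneg (sub_nonneg.2 (one_le_pow₀ hτ (n := 2)))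
            (ampSqr_nonneg (op θ τ K z y - divG G y))),
        mul_nonneg hc0 (ampSqr_nonneg (op θ τ K z y - divG G y)),
        mul_nonneg (sq_nonneg τ) (add_nonneg (grad2_nonneg z y) (ampSqr_nonneg (z y)))]
    have hτ2 : 1 ≤ τ ^ 2 := one_le_pow₀ hτ
    have hG0 := grad2_nonneg z y
    have hD0 := dens_nonneg θ τ K z G y
    simp only [hP]
    have hT : χ y ^ 2 * (-(rdot (z y) W)) ≤ 4 * (c + 1) * τ ^ 2 * ampSqr (z y) +
        ampSqr (op θ τ K z y - divG G y) / 8 + ampSqr (z y) / 16 + χ y ^ 2 * grad2 z y / 16 := by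
      have h1 : χ y ^ 2 * (-(rdot (z y) W)) ≤ χ y ^ 2 *
          (4 * (c + 1) * τ ^ 2 * ampSqr (z y) + ampSqr (op θ τ K z y - divG G y) / 8 +
            ampSqr (z y) / 16 + grad2 z y / 16) :=
        mul_le_mul_of_nonneg_left (by linarith [b1.1]) (sq_nonneg _)
      have h2 := mul_le_mul_of_nonneg_right hχ1 (show 0 ≤ 4 * (c + 1) * τ ^ 2 * ampSqr (z y) +
          ampSqr (op θ τ K z y - divG G y) / 8 + ampSqr (z y) / 16 by
        have := ampSqr_nonneg (z y); have := ampSqr_nonneg (op θ τ K z y - divG G y); positivity)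
      nlinarith
    have hR : ∀ i, χ y ^ 2 * rdot (pd i z y) (G i y, 0) ≤
        χ y ^ 2 * ampSqr (pd i z y) / 8 + 2 * ampSqr ((G i y, 0) : Amp) := fun i => by
      have h1 := mul_le_mul_of_nonneg_left (b2 i).2 (sq_nonneg (χ y))
      nlinarith [mul_le_mul_of_nonneg_right hχ1 (ampSqr_nonneg ((G i y, 0) : Amp))]
    have hG8 : ∀ i, χ y ^ 2 * ampSqr ((G i y, 0) : Amp) ≤ ampSqr ((G i y, 0) : Amp) := fun i =>
      mul_le_of_le_one_left (ampSqr_nonneg _) hχ1
    have hfin : 4 * (c + 1) * τ ^ 2 * ampSqr (z y) + ampSqr (op θ τ K z y - divG G y) / 8 +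
        ampSqr (z y) / 16 + 96 * L ^ 2 * ampSqr (z y) +
        3 * ∑ i, ampSqr ((G i y, 0) : Amp) ≤ C1 * τ ^ 2 * dens θ τ K z G y := by
      have q1 := ampSqr_nonneg (z y)
      have q2 := ampSqr_nonneg (op θ τ K z y - divG G y)
      have q3 : 0 ≤ ∑ i, ampSqr ((G i y, 0) : Amp) := Finset.sum_nonneg fun _ _ => ampSqr_nonneg _
      have p0 : 1 ≤ C1 * τ ^ 2 / 3 := by
        have : (9 : ℝ) ≤ C1 := by simp only [C1]; nlinarith
        nlinarith
      have t1 : (4 * (c + 1) * τ ^ 2 + 1 / 16 + 96 * L ^ 2) * ampSqr (z y) ≤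
          C1 * τ ^ 2 * ampSqr (z y) := by
        refine mul_le_mul_of_nonneg_right ?_ q1
        simp only [C1]; nlinarith [mul_nonneg (sq_nonneg L) (sub_nonneg.2 hτ2)]
      simp only [dens]
      nlinarith [mul_le_mul_of_nonneg_right p0 q2, mul_le_mul_of_nonneg_right p0 q3]
    have c3 := fun i => (abs_le.1 (b3 i)).1
    have hexp : ∑ i, (χ y ^ 2 * (ampSqr (pd i z y) - rdot (pd i z y) (G i y, 0) +
          rdot (z y) (pd i (pd i z) y - pd i (fun w => ((G i w, 0) : Amp)) y)) +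
        2 * χ y * fderiv ℝ χ y (Pi.single i 1) * rdot (z y) (pd i z y - ((G i y, 0) : Amp))) =
        χ y ^ 2 * grad2 z y - (∑ i, χ y ^ 2 * rdot (pd i z y) (G i y, 0)) + χ y ^ 2 * rdot (z y) W +
        ∑ i, 2 * χ y * fderiv ℝ χ y (Pi.single i 1) *
          rdot (z y) (pd i z y - ((G i y, 0) : Amp)) := by
      rw [← hsum, grad2, Finset.mul_sum, Finset.mul_sum]
      simp only [mul_add, mul_sub, Finset.sum_add_distrib, Finset.sum_sub_distrib]
    have sR := Finset.sum_le_sum (s := Finset.univ) fun i _ => hR i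
    have sG := Finset.sum_le_sum (s := Finset.univ) fun i _ => hG8 i
    have s3 := Finset.sum_le_sum (s := Finset.univ) fun i _ => c3 i
    simp only [Finset.sum_neg_distrib, Finset.sum_add_distrib, ← Finset.sum_div, mul_add,
      ← Finset.mul_sum, Finset.sum_const, Finset.card_univ, Fintype.card_fin, nsmul_eq_mul,
      Nat.cast_ofNat] at sR sG s3
    rw [hexp]
    simp only [← Finset.mul_sum] at hfin ⊢
    simp only [grad2] at hT hG0 ⊢
    have p1 : 0 ≤ χ y ^ 2 * ∑ i, ampSqr (pd i z y) := mul_nonneg (sq_nonneg _) hG0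
    have p2 : 0 ≤ ∑ i, ampSqr ((G i y, 0) : Amp) := Finset.sum_nonneg fun _ _ => ampSqr_nonneg _
    linarith
  have i1 : Integrable fun y => ∑ i, (pd i (Φ i) y).re := integrable_finsetSum _ fun i _ => hint i
  have h := integral_mono hPi (iadd (iadd i1 (hPi.const_mul (1 / 2)))
    (hIi.const_mul (C1 * τ ^ 2))) key
  rw [integral_add (iadd i1 (hPi.const_mul (1 / 2))) (hIi.const_mul (C1 * τ ^ 2)),
    integral_add i1 (hPi.const_mul (1 / 2)), integral_const_mul, integral_const_mul, hI0,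
    integral_indicator measurableSet_ball] at h
  linarith

theorem pd_comm {f : Space → ℂ} (hf : ContDiff ℝ ∞ f) (i j : Fin 3) (x : Space) :
    pd j (pd i f) x = pd i (pd j f) x := by
  have hd : Differentiable ℝ (fderiv ℝ f) :=
    (hf.fderiv_right (m := ∞) (by simp)).differentiable (by simp)
  have e : ∀ k l : Fin 3, pd l (pd k f) x =
      fderiv ℝ (fderiv ℝ f) x (Pi.single l 1) (Pi.single k 1) := fun k l => by
    show fderiv ℝ (fun y => fderiv ℝ f y (Pi.single k 1)) x (Pi.single l 1) = _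
    simp [fderiv_clm_apply (hd x) (differentiableAt_const _)]
  rw [e, e]
  exact hf.contDiffAt.isSymmSndFDerivAt (by
    simp only [minSmoothness_of_isRCLikeNormedField]
    exact WithTop.coe_le_coe.2 (le_top : (2 : ℕ∞) ≤ ⊤)) _ _

/-- Conjugation of scalars as a real linear map. -/
def conjR : ℂ →L[ℝ] ℂ := Complex.conjCLE.toContinuousLinearMap

theorem integral_hess {h : Space → ℂ} (hh : ContDiff ℝ ∞ h) {R : ℝ}
    (h0 : ∀ x, R < ‖x‖ → h x = 0) :
    ∫ x, ∑ i, ∑ j, ‖hess h x i j‖ ^ 2 = ∫ x, ‖lap h x‖ ^ 2 := by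
  set Ψ : Fin 3 → Fin 3 → Space → ℂ := fun i j y => pd i h y * conjR (pd j (pd i h) y) with hΨ
  set Θ : Fin 3 → Fin 3 → Space → ℂ := fun i j y => pd i h y * conjR (pd j (pd j h) y) with hΘ
  have hd1 : ∀ i, ContDiff ℝ ∞ (pd i h) := contDiff_pd hh
  have hd2 : ∀ i j, ContDiff ℝ ∞ fun y => conjR (pd j (pd i h) y) := fun i j =>
    conjR.contDiff.comp (contDiff_pd (hd1 i) j)
  have hΨs : ∀ i j, ContDiff ℝ ∞ (Ψ i j) := fun i j => (hd1 i).mul (hd2 i j)
  have hΘs : ∀ i j, ContDiff ℝ ∞ (Θ i j) := fun i j => (hd1 i).mul (hd2 j j)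
  have hΨ0 : ∀ i j y, R < ‖y‖ → Ψ i j y = 0 := fun i j y hy => by
    simp [hΨ, pd_eq_zero_outside h0 i hy]
  have hΘ0 : ∀ i j y, R < ‖y‖ → Θ i j y = 0 := fun i j y hy => by
    simp [hΘ, pd_eq_zero_outside h0 i hy]
  have key : ∀ x, (∑ i, ∑ j, ((‖hess h x i j‖ ^ 2 : ℝ) : ℂ)) - ((‖lap h x‖ ^ 2 : ℝ) : ℂ) =
      ∑ i, ∑ j, (pd j (Ψ i j) x - pd i (Θ i j) x) := by
    intro x
    have sq : ∀ a : ℂ, ((‖a‖ ^ 2 : ℝ) : ℂ) = a * conjR a := fun a => by
      show _ = a * conj a
      rw [Complex.mul_conj, Complex.normSq_eq_norm_sq]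
    have third : ∀ i j, pd i (pd j (pd j h)) x = pd j (pd j (pd i h)) x := fun i j => by
      rw [pd_comm (hd1 j) j i]
      congr 1
      funext y
      exact pd_comm hh j i y
    simp only [sq, hΨ, hΘ, pd_mul (smooth_diff (hd1 _)) (smooth_diff (hd2 _ _)),
      pd_clm conjR (smooth_diff (contDiff_pd (hd1 _) _)), hess, lap, map_sum,
      Finset.sum_mul_sum, Finset.sum_sub_distrib, Finset.sum_add_distrib]
    simp only [Fin.sum_univ_three]
    rw [third 0 1, third 0 2, third 1 0, third 1 2, third 2 0, third 2 1]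
    ring
  have iA : Integrable fun x => ∑ i, ∑ j, ((‖hess h x i j‖ ^ 2 : ℝ) : ℂ) := by
    refine integrable_of_bound (continuous_finsetSum _ fun i _ => continuous_finsetSum _ fun j _ =>
      Complex.continuous_ofReal.comp (((contDiff_pd (hd1 i) j).continuous.norm).pow 2)) (R := R)
      fun x hx => ?_
    simp [hess, pd_eq_zero_outside (fun y hy => pd_eq_zero_outside h0 _ hy) _ hx]
  have iB : Integrable fun x => ((‖lap h x‖ ^ 2 : ℝ) : ℂ) :=
    integrable_of_bound (Complex.continuous_ofReal.comp ((contDiff_lap hh).continuous.norm.pow 2))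
      (R := R) fun x hx => by
        simp [lap, pd_eq_zero_outside (fun y hy => pd_eq_zero_outside h0 _ hy) _ hx]
  have iC : ∀ i j, Integrable fun x => pd j (Ψ i j) x - pd i (Θ i j) x := fun i j =>
    integrable_of_bound ((continuous_pd (hΨs i j) j).sub (continuous_pd (hΘs i j) i)) (R := R)
      fun x hx => by simp [pd_eq_zero_outside (hΨ0 i j) j hx, pd_eq_zero_outside (hΘ0 i j) i hx]
  have h2 : ∫ x, ((∑ i, ∑ j, ((‖hess h x i j‖ ^ 2 : ℝ) : ℂ)) - ((‖lap h x‖ ^ 2 : ℝ) : ℂ)) = 0 := by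
    simp only [key]
    rw [integral_finsetSum _ fun i _ => integrable_finsetSum _ fun j _ => iC i j]
    refine Finset.sum_eq_zero fun i _ => ?_
    rw [integral_finsetSum _ fun j _ => iC i j]
    refine Finset.sum_eq_zero fun j _ => ?_
    rw [integral_sub (integrable_of_bound (continuous_pd (hΨs i j) j) (R := R)
        fun x hx => pd_eq_zero_outside (hΨ0 i j) j hx)
      (integrable_of_bound (continuous_pd (hΘs i j) i) (R := R)
        fun x hx => pd_eq_zero_outside (hΘ0 i j) i hx),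
      integral_pd ((hΨs i j).of_le (by simp)) (hasCompactSupport_of_bound (hΨ0 i j)),
      integral_pd ((hΘs i j).of_le (by simp)) (hasCompactSupport_of_bound (hΘ0 i j)), sub_zero]
  simp only [← Complex.ofReal_sum] at iA h2
  rw [integral_sub iA iB, sub_eq_zero, integral_complex_ofReal, integral_complex_ofReal,
    Complex.ofReal_inj] at h2
  exact h2

theorem lap_mul {a b : Space → ℂ} (ha : ContDiff ℝ ∞ a) (hb : ContDiff ℝ ∞ b) (x : Space) :
    lap (fun y => a y * b y) x =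
      a x * lap b x + 2 * (∑ i, pd i a x * pd i b x) + lap a x * b x := by
  have e : ∀ i, pd i (fun y => a y * b y) = fun y => a y * pd i b y + pd i a y * b y := fun i =>
    funext fun y => pd_mul (smooth_diff ha) (smooth_diff hb) i y
  have d1 : ∀ i, Differentiable ℝ fun y => a y * pd i b y := fun i =>
    (smooth_diff ha).mul (smooth_diff (contDiff_pd hb i))
  have d2 : ∀ i, Differentiable ℝ fun y => pd i a y * b y := fun i =>
    (smooth_diff (contDiff_pd ha i)).mul (smooth_diff hb)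
  simp only [lap, e, pd_add (d1 _) (d2 _), pd_mul (smooth_diff ha) (smooth_diff (contDiff_pd hb _)),
    pd_mul (smooth_diff (contDiff_pd ha _)) (smooth_diff hb), Fin.sum_univ_three]
  ring

/-- The interior estimate. -/
theorem apriori (θ : C3) (K : Coeff) (R : ℝ) :
    ∃ C, 0 ≤ C ∧ ∀ τ : ℝ, 1 ≤ τ → ∀ z : Space → Amp, ContDiff ℝ ∞ z →
      ∀ G : Fin 3 → Space → C3, (∀ i, ContDiff ℝ ∞ (G i)) →
        ∫ x in ball (0 : Space) R, sobSqr z x ≤
          C * τ ^ 4 * ∫ x in ball (0 : Space) (|R| + 4), dens θ τ K z G x := by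
  set χ : ContDiffBump (0 : Space) := ⟨|R| + 1, |R| + 2, by positivity, by linarith⟩ with hχ
  set χ₁ : ContDiffBump (0 : Space) := ⟨|R| + 2, |R| + 3, by positivity, by linarith⟩ with hχ₁
  set s := |R| + 4 with hs
  obtain ⟨C₁, hC₁, hE⟩ := energy_bound θ K χ (s := s) (by simp [hχ, hs]; linarith)
  obtain ⟨C₂, hC₂, hE₁⟩ := energy_bound θ K χ₁ (s := s) (by simp [hχ₁, hs]; linarith)
  obtain ⟨c, hc0, hc⟩ := lap_sub_bound θ K s
  have hχC : ContDiff ℝ ∞ fun y => (χ y : ℂ) := Complex.ofRealCLM.contDiff.comp χ.contDiff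
  obtain ⟨Λ, hΛ⟩ := (isCompact_closedBall (0 : Space) s).exists_bound_of_continuousOn
    (f := fun y => ((fun i => pd i (fun w => (χ w : ℂ)) y), lap (fun w => (χ w : ℂ)) y))
    ((continuous_pi fun i => continuous_pd hχC i).prodMk (contDiff_lap hχC).continuous).continuousOn
  set C3' := 3 * (2 + c) + 3 * 12 * Λ ^ 2 + 3 * Λ ^ 2 with hC3
  refine ⟨1 + C₁ + C3' * (C₂ + 1), by positivity, fun τ hτ z hz G hG => ?_⟩
  set D := ∫ x in ball (0 : Space) s, dens θ τ K z G x with hD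
  have hdc := continuous_dens θ τ K hz hG
  have hD0 : 0 ≤ D := integral_nonneg fun x => dens_nonneg θ τ K z G x
  set g : Space → ℂ := fun y => (z y).2 with hg
  have hgs : ContDiff ℝ ∞ g := contDiff_snd hz
  set h : Space → ℂ := fun y => (χ y : ℂ) * g y with hh
  have hhs : ContDiff ℝ ∞ h := hχC.mul hgs
  have hh0 : ∀ x, χ.rOut < ‖x‖ → h x = 0 := fun x hx => by
    simp [hh, χ.zero_of_le_dist (show χ.rOut ≤ dist x 0 by rw [dist_zero_right]; exact hx.le)]
  set J : Space → ℝ := fun x => C3' * τ ^ 2 *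
    (χ₁ x ^ 2 * grad2 z x + (ball (0 : Space) s).indicator (dens θ τ K z G) x) with hJ
  have hg2c : Continuous (grad2 z) :=
    continuous_finsetSum _ fun i _ => continuous_ampSqr (continuous_pd hz i)
  have iP1 : Integrable fun x => χ₁ x ^ 2 * grad2 z x :=
    integrable_of_bound ((χ₁.continuous.pow 2).mul hg2c) (R := χ₁.rOut) fun x hx => by
      simp [χ₁.zero_of_le_dist (show χ₁.rOut ≤ dist x 0 by rw [dist_zero_right]; exact hx.le)]
  have iI : Integrable ((ball (0 : Space) s).indicator (dens θ τ K z G)) :=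
    (integrable_indicator_iff measurableSet_ball).2 (integrableOn_ball' hdc s)
  have key : ∀ x, ‖lap h x‖ ^ 2 ≤ J x := by
    intro x
    have hJ0 : 0 ≤ J x := mul_nonneg (by positivity) (add_nonneg
      (mul_nonneg (sq_nonneg _) (grad2_nonneg z x))
      (Set.indicator_nonneg (fun y _ => dens_nonneg θ τ K z G y) x))
    by_cases hx : χ.rOut < ‖x‖
    · simp [lap, pd_eq_zero_outside (fun y hy => pd_eq_zero_outside hh0 _ hy) _ hx, hJ0]
    rw [not_lt] at hx
    have hxr : ‖x‖ ≤ |R| + 2 := hx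
    have hx1 : χ₁ x = 1 := χ₁.one_of_mem_closedBall (mem_closedBall_zero_iff.2 hxr)
    have hxs : x ∈ ball (0 : Space) s := mem_ball_zero_iff.2 (by linarith)
    have hb := hΛ x (mem_closedBall_zero_iff.2 (by linarith))
    have hl1 : ∀ i, ‖pd i (fun w => (χ w : ℂ)) x‖ ≤ Λ := fun i =>
      ((norm_le_pi_norm (fun i => pd i (fun w => (χ w : ℂ)) x) i).trans (le_max_left _ _)).trans hb
    have hl2 : ‖lap (fun w => (χ w : ℂ)) x‖ ≤ Λ := (le_max_right _ _).trans hb
    have hΛ0 : 0 ≤ Λ := (norm_nonneg _).trans hl2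
    have hW := hc τ hτ z G x (by linarith)
    have e2 : ∀ i, pd i g = fun y => (pd i z y).2 := fun i => funext (pd_snd (smooth_diff hz) i)
    have elap : lap g x = (lap z x - divG G x).2 := by
      have e3 : ∀ i, (pd i (fun y => ((G i y, 0) : Amp)) x).2 = 0 := fun i =>
        ((pd_snd (smooth_diff ((hG i).prodMk contDiff_const)) i x).symm).trans (pd_const _ i x)
      simp [lap, divG, e2, pd_snd (smooth_diff (contDiff_pd hz _)), Prod.snd_sum, e3]
    have n0 : ‖(χ x : ℂ) * lap g x‖ ^ 2 ≤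
        2 * ampSqr (op θ τ K z x - divG G x) + c * τ ^ 2 * (grad2 z x + ampSqr (z x)) := by
      refine le_trans ?_ hW
      rw [norm_mul, Complex.norm_real, Real.norm_eq_abs, abs_of_nonneg χ.nonneg, elap]
      exact (pow_le_pow_left₀ (mul_nonneg χ.nonneg (norm_nonneg _))
        (mul_le_of_le_one_left (norm_nonneg _) χ.le_one) 2).trans
        (le_add_of_nonneg_left (Finset.sum_nonneg fun _ _ => sq_nonneg _))
    have n1 : ‖2 * ∑ i, pd i (fun w => (χ w : ℂ)) x * pd i g x‖ ^ 2 ≤ 12 * Λ ^ 2 * grad2 z x := by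
      have hm : ∀ i, ‖pd i (fun w => (χ w : ℂ)) x * pd i g x‖ ≤ Λ * ‖pd i z x‖ := fun i => by
        rw [norm_mul, e2]
        exact mul_le_mul (hl1 i) (norm_snd_le _) (norm_nonneg _) hΛ0
      have hs3 : ‖∑ i, pd i (fun w => (χ w : ℂ)) x * pd i g x‖ ≤
          Λ * (‖pd 0 z x‖ + ‖pd 1 z x‖ + ‖pd 2 z x‖) := by
        refine (norm_sum_le _ _).trans ?_
        rw [Fin.sum_univ_three]
        linarith [hm 0, hm 1, hm 2]
      have hpw := pow_le_pow_left₀ (norm_nonneg _) hs3 2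
      rw [norm_mul, Complex.norm_two, mul_pow]
      simp only [grad2, Fin.sum_univ_three]
      have h3 : (‖pd 0 z x‖ + ‖pd 1 z x‖ + ‖pd 2 z x‖) ^ 2 ≤
          3 * (ampSqr (pd 0 z x) + ampSqr (pd 1 z x) + ampSqr (pd 2 z x)) := by
        nlinarith [norm_sq_le_ampSqr (pd 0 z x), norm_sq_le_ampSqr (pd 1 z x),
          norm_sq_le_ampSqr (pd 2 z x), sq_nonneg (‖pd 0 z x‖ - ‖pd 1 z x‖),
          sq_nonneg (‖pd 0 z x‖ - ‖pd 2 z x‖), sq_nonneg (‖pd 1 z x‖ - ‖pd 2 z x‖)]
      rw [mul_pow Λ, Fin.sum_univ_three] at hpw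
      linarith [mul_le_mul_of_nonneg_left h3 (sq_nonneg Λ)]
    have n2 : ‖lap (fun w => (χ w : ℂ)) x * g x‖ ^ 2 ≤ Λ ^ 2 * ampSqr (z x) := by
      rw [norm_mul, mul_pow]
      exact mul_le_mul (pow_le_pow_left₀ (norm_nonneg _) hl2 2)
        ((pow_le_pow_left₀ (norm_nonneg _) (norm_snd_le _) 2).trans (norm_sq_le_ampSqr _))
        (sq_nonneg _) (sq_nonneg _)
    simp only [hJ, hh, lap_mul hχC hgs, hx1, one_pow, one_mul, Set.indicator_of_mem hxs]
    have htri : ∀ a b d : ℂ, ‖a + b + d‖ ^ 2 ≤ 3 * (‖a‖ ^ 2 + ‖b‖ ^ 2 + ‖d‖ ^ 2) := fun a b d => by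
      have h1 := pow_le_pow_left₀ (norm_nonneg _) (norm_add₃_le (a := a) (b := b) (c := d)) 2
      nlinarith [sq_nonneg (‖a‖ - ‖b‖), sq_nonneg (‖a‖ - ‖d‖), sq_nonneg (‖b‖ - ‖d‖)]
    refine (htri _ _ _).trans ?_
    have q1 := ampSqr_nonneg (z x)
    have q2 := ampSqr_nonneg (op θ τ K z x - divG G x)
    have q3 : 0 ≤ ∑ i, ampSqr ((G i x, 0) : Amp) := Finset.sum_nonneg fun _ _ => ampSqr_nonneg _
    have q4 := grad2_nonneg z x
    have hτ2 : 1 ≤ τ ^ 2 := one_le_pow₀ hτ
    simp only [dens, hC3]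
    have hl := le_mul_of_one_le_right (sq_nonneg Λ) hτ2
    have hcτ := mul_nonneg hc0 (sq_nonneg τ)
    have f1 : 6 ≤ (3 * (2 + c) + 3 * 12 * Λ ^ 2 + 3 * Λ ^ 2) * τ ^ 2 := by linarith [sq_nonneg Λ]
    have f2 : 3 * c * τ ^ 2 + 36 * Λ ^ 2 ≤ (3 * (2 + c) + 3 * 12 * Λ ^ 2 + 3 * Λ ^ 2) * τ ^ 2 := by
      linarith [sq_nonneg Λ]
    have f3 : 3 * c * τ ^ 2 + 3 * Λ ^ 2 ≤ (3 * (2 + c) + 3 * 12 * Λ ^ 2 + 3 * Λ ^ 2) * τ ^ 2 := by
      linarith [sq_nonneg Λ]
    have g1 := mul_le_mul_of_nonneg_right f1 q2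
    have g2 := mul_le_mul_of_nonneg_right f2 q4
    have g3 := mul_le_mul_of_nonneg_right f3 q1
    have g4 := mul_nonneg (show 0 ≤ (3 * (2 + c) + 3 * 12 * Λ ^ 2 + 3 * Λ ^ 2) * τ ^ 2 by
      positivity) q3
    linarith
  have iJ : Integrable J := (iadd iP1 iI).const_mul _
  have hlapb : ∫ x, ‖lap h x‖ ^ 2 ≤ C3' * (C₂ + 1) * τ ^ 4 * D := by
    refine (integral_mono_of_nonneg (Eventually.of_forall fun x => sq_nonneg _) iJ
      (Eventually.of_forall key)).trans ?_
    simp only [hJ]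
    rw [integral_const_mul, integral_add iP1 iI, integral_indicator measurableSet_ball, ← hD]
    have he := hE₁ τ hτ z hz G hG
    have hτ2 : 1 ≤ τ ^ 2 := one_le_pow₀ hτ
    have h1 : (∫ x, χ₁ x ^ 2 * grad2 z x) + D ≤ (C₂ + 1) * τ ^ 2 * D := by
      rw [← hD] at he
      nlinarith [mul_nonneg (sub_nonneg.2 hτ2) hD0]
    refine (mul_le_mul_of_nonneg_left h1 (by positivity)).trans (le_of_eq ?_)
    ring
  have hτ4 : τ ^ 2 ≤ τ ^ 4 := pow_le_pow_right₀ hτ (by norm_num)
  have hsub : ball (0 : Space) R ⊆ ball (0 : Space) s :=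
    ball_subset_ball (by linarith [le_abs_self R])
  have iZ := integrableOn_ball' (continuous_ampSqr hz.continuous)
  have t1 : ∫ x in ball (0 : Space) R, ampSqr (z x) ≤ D :=
    (setIntegral_mono_set (iZ s) (Eventually.of_forall fun x => ampSqr_nonneg _)
      hsub.eventuallyLE).trans (setIntegral_mono (iZ s) (integrableOn_ball' hdc s) fun x => by
        have : 0 ≤ ∑ i, ampSqr ((G i x, 0) : Amp) := Finset.sum_nonneg fun _ _ => ampSqr_nonneg _
        have := ampSqr_nonneg (op θ τ K z x - divG G x)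
        simp only [dens]; linarith)
  have hone : ∀ x ∈ ball (0 : Space) R, χ x = 1 := fun x hx => χ.one_of_mem_closedBall
    (mem_closedBall_zero_iff.2 (show ‖x‖ ≤ |R| + 1 by
      linarith [mem_ball_zero_iff.1 hx, le_abs_self R]))
  have iP : Integrable fun x => χ x ^ 2 * grad2 z x :=
    integrable_of_bound ((χ.continuous.pow 2).mul hg2c) (R := χ.rOut) fun x hx => by
      simp [χ.zero_of_le_dist (show χ.rOut ≤ dist x 0 by rw [dist_zero_right]; exact hx.le)]
  have t2 : ∫ x in ball (0 : Space) R, grad2 z x ≤ C₁ * τ ^ 2 * D := by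
    refine le_trans ?_ (hE τ hτ z hz G hG)
    rw [setIntegral_congr_fun (g := fun x => χ x ^ 2 * grad2 z x) measurableSet_ball
      fun x hx => by simp [hone x hx]]
    exact setIntegral_le_integral iP
      (Eventually.of_forall fun x => mul_nonneg (sq_nonneg _) (grad2_nonneg z x))
  have iH : Integrable fun x => ∑ i, ∑ j, ‖hess h x i j‖ ^ 2 :=
    integrable_of_bound (continuous_finsetSum _ fun i _ => continuous_finsetSum _ fun j _ =>
      ((continuous_pd (contDiff_pd hhs i) j).norm).pow 2) (R := χ.rOut) fun x hx => by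
      simp [hess, pd_eq_zero_outside (fun y hy => pd_eq_zero_outside hh0 _ hy) _ hx]
  have t3 : ∫ x in ball (0 : Space) R, ∑ i, ∑ j, ‖hess g x i j‖ ^ 2 ≤
      C3' * (C₂ + 1) * τ ^ 4 * D := by
    refine le_trans ?_ ((le_of_eq (integral_hess hhs hh0)).trans hlapb)
    rw [setIntegral_congr_fun (g := fun x => ∑ i, ∑ j, ‖hess h x i j‖ ^ 2) measurableSet_ball
      fun x hx => ?_]
    · exact setIntegral_le_integral iH (Eventually.of_forall fun x =>
        Finset.sum_nonneg fun _ _ => Finset.sum_nonneg fun _ _ => sq_nonneg _)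
    have hev : h =ᶠ[𝓝 x] g := by
      filter_upwards [isOpen_ball.mem_nhds hx] with y hy
      simp [hh, hone y hy]
    have hp : ∀ i, pd i h =ᶠ[𝓝 x] pd i g := fun i =>
      hev.fderiv.mono fun y hy => by unfold pd; rw [hy]
    simp [hess, pd, (hp _).fderiv_eq]
  have hcz : Continuous fun x => ampSqr (z x) := continuous_ampSqr hz.continuous
  have hch : Continuous fun x => ∑ i, ∑ j, ‖hess g x i j‖ ^ 2 :=
    continuous_finsetSum _ fun i _ => continuous_finsetSum _ fun j _ =>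
      ((continuous_pd (contDiff_pd hgs i) j).norm).pow 2
  have e : ∫ x in ball (0 : Space) R, sobSqr z x = (∫ x in ball (0 : Space) R, ampSqr (z x)) +
      (∫ x in ball (0 : Space) R, grad2 z x) +
      ∫ x in ball (0 : Space) R, ∑ i, ∑ j, ‖hess g x i j‖ ^ 2 := by
    have hcg : Continuous fun x => ampSqr (z x) + grad2 z x := hcz.add hg2c
    rw [← integral_add (integrableOn_ball' hcz R) (integrableOn_ball' hg2c R),
      ← integral_add (integrableOn_ball' hcg R) (integrableOn_ball' hch R)]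
    rfl
  rw [e]
  have a1 : D ≤ τ ^ 4 * D := le_mul_of_one_le_left hD0 (one_le_pow₀ hτ)
  have a2 : C₁ * τ ^ 2 * D ≤ C₁ * τ ^ 4 * D :=
    mul_le_mul_of_nonneg_right (mul_le_mul_of_nonneg_left hτ4 hC₁) hD0
  linarith

end

end Vale.Agent.P136.Full.Solve
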