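import Mathlib
import Vale.Agent.P136.Full.Defs
import Vale.Agent.P136.Full.Solve.Amp
import Vale.Agent.P136.Full.Solve.Calc
import Vale.Agent.P136.Full.Solve.Oper

/-!
# P136: the coefficients of the conjugated reduced system
-/

open MeasureTheory
open scoped Topology ContDiff ComplexConjugate

namespace Vale.Agent.P136.Full.Solve

noncomputable section

variable (M : Moduli)

theorem A_pos (x : Space) : 0 < M.A x := by
  have h1 := M.mu_pos x
  have h2 := M.bulk_pos x
  unfold Moduli.A
  linarith

theorem contDiff_ofReal {f : Space → ℝ} (hf : ContDiff ℝ ∞ f) :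
    ContDiff ℝ ∞ fun x => (f x : ℂ) := Complex.ofRealCLM.contDiff.comp hf

theorem contDiff_A : ContDiff ℝ ∞ M.A := M.lam_smooth.add M.mu_smooth

theorem contDiff_m : ContDiff ℝ ∞ M.m := M.mu_smooth.inv fun x => (M.mu_pos x).ne'

theorem contDiff_sq : ContDiff ℝ ∞ M.sq := M.mu_smooth.sqrt fun x => (M.mu_pos x).ne'

theorem contDiff_n : ContDiff ℝ ∞ M.n :=
  (contDiff_sq M).inv fun x => (Real.sqrt_pos.2 (M.mu_pos x)).ne'

theorem contDiff_c : ContDiff ℝ ∞ M.c :=
  ((contDiff_A M).mul (contDiff_sq M)).div ((contDiff_A M).add M.mu_smooth)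
    fun x => (add_pos (A_pos M x) (M.mu_pos x)).ne'

theorem contDiff_muC : ContDiff ℝ ∞ M.muC := contDiff_ofReal M.mu_smooth

theorem contDiff_AC : ContDiff ℝ ∞ M.AC := contDiff_ofReal (contDiff_A M)

theorem contDiff_mC : ContDiff ℝ ∞ M.mC := contDiff_ofReal (contDiff_m M)

theorem contDiff_nC : ContDiff ℝ ∞ M.nC := contDiff_ofReal (contDiff_n M)

theorem contDiff_sqC : ContDiff ℝ ∞ M.sqC := contDiff_ofReal (contDiff_sq M)

theorem contDiff_cC : ContDiff ℝ ∞ M.cC := contDiff_ofReal (contDiff_c M)

theorem sqC_ne (x : Space) : M.sqC x ≠ 0 := by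
  simpa [Moduli.sqC, Moduli.sq] using (Real.sqrt_pos.2 (M.mu_pos x)).ne'

theorem contDiff_grad {f : Space → ℂ} (hf : ContDiff ℝ ∞ f) : ContDiff ℝ ∞ (grad f) :=
  contDiff_pi.2 fun i => contDiff_pd hf i

theorem contDiff_hessVec {f : Space → ℂ} (hf : ContDiff ℝ ∞ f) {v : Space → C3}
    (hv : ContDiff ℝ ∞ v) : ContDiff ℝ ∞ fun x => hessVec f x (v x) :=
  contDiff_pi.2 fun i =>
    ContDiff.sum fun j _ => (contDiff_pd (contDiff_pd hf i) j).mul (contDiff_coord hv j)

theorem contDiff_bdot {u v : Space → C3} (hu : ContDiff ℝ ∞ u) (hv : ContDiff ℝ ∞ v) :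
    ContDiff ℝ ∞ fun x => bdot (u x) (v x) :=
  ContDiff.sum fun j _ => (contDiff_coord hu j).mul (contDiff_coord hv j)

/-- The first order coefficients. -/
def cb (i : Fin 3) (x : Space) : Amp →L[ℂ] Amp :=
  LinearMap.toContinuousLinearMap
    { toFun := fun V =>
        (-((2 * M.sqC x * V.2) • (fun j => hess M.mC x j i)) - (V.1 i * M.mC x) • grad M.muC x,
          M.cC x * V.1 i)
      map_add' := fun V W => by
        ext <;> simp <;> ring
      map_smul' := fun c V => by
        ext <;> simp <;> ring }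

/-- The zero order coefficient. -/
def cb0 (x : Space) : Amp →L[ℂ] Amp :=
  LinearMap.toContinuousLinearMap
    { toFun := fun V =>
        ((M.sqC x)⁻¹ • ((M.muC x * lap M.nC x + bdot (grad M.nC x) (grad M.muC x)) • V.1 +
              (2 * M.muC x) • hessVec M.nC x V.1 +
              (2 * bdot (grad M.nC x) V.1) • grad M.muC x) -
            (2 * V.2 / M.sqC x) • (M.muC x • grad (lap M.mC) x + hessVec M.mC x (grad M.muC x)),
          (M.muC x / (M.AC x + M.muC x)) *
            ((M.AC x - 2 * M.muC x) * bdot (grad M.nC x) V.1 +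
              (M.muC x - M.AC x) * lap M.mC x * V.2))
      map_add' := fun V W => by
        ext <;> simp [hessVec, bdot, Fin.sum_univ_three] <;> ring
      map_smul' := fun c V => by
        ext <;> simp [hessVec, bdot, Fin.sum_univ_three] <;> ring }

/-- The coefficient growing with the parameter. -/
def cbt (θ : C3) (x : Space) : Amp →L[ℂ] Amp :=
  LinearMap.toContinuousLinearMap
    { toFun := fun V =>
        (-((2 * M.sqC x * V.2) • hessVec M.mC x θ) - (bdot θ V.1 * M.mC x) • grad M.muC x,
          M.cC x * bdot θ V.1)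
      map_add' := fun V W => by
        ext <;> simp [bdot, Fin.sum_univ_three] <;> ring
      map_smul' := fun c V => by
        ext <;> simp [bdot, Fin.sum_univ_three] <;> ring }

theorem smoothC_cb (i : Fin 3) : SmoothC (cb M i) := fun V => by
  show ContDiff ℝ ∞ fun x =>
    ((-((2 * M.sqC x * V.2) • (fun j => hess M.mC x j i)) - (V.1 i * M.mC x) • grad M.muC x,
      M.cC x * V.1 i) : Amp)
  exact (((((contDiff_const.mul (contDiff_sqC M)).mul contDiff_const).smul
    (contDiff_pi.2 fun j => contDiff_pd (contDiff_pd (contDiff_mC M) j) i)).neg).sub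
    ((contDiff_const.mul (contDiff_mC M)).smul (contDiff_grad (contDiff_muC M)))).prodMk
    ((contDiff_cC M).mul contDiff_const)

theorem smoothC_cb0 : SmoothC (cb0 M) := fun V => by
  show ContDiff ℝ ∞ fun x =>
    (((M.sqC x)⁻¹ • ((M.muC x * lap M.nC x + bdot (grad M.nC x) (grad M.muC x)) • V.1 +
              (2 * M.muC x) • hessVec M.nC x V.1 +
              (2 * bdot (grad M.nC x) V.1) • grad M.muC x) -
            (2 * V.2 / M.sqC x) • (M.muC x • grad (lap M.mC) x + hessVec M.mC x (grad M.muC x)),
          (M.muC x / (M.AC x + M.muC x)) *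
            ((M.AC x - 2 * M.muC x) * bdot (grad M.nC x) V.1 +
              (M.muC x - M.AC x) * lap M.mC x * V.2)) : Amp)
  have hn := contDiff_grad (contDiff_nC M)
  have hm := contDiff_grad (contDiff_muC M)
  have hne : ∀ x, M.AC x + M.muC x ≠ 0 := fun x => by
    have := (add_pos (A_pos M x) (M.mu_pos x)).ne'
    simp only [Moduli.AC, Moduli.muC, ← Complex.ofReal_add, ne_eq, Complex.ofReal_eq_zero]
    exact this
  refine (ContDiff.sub ?_ ?_).prodMk ?_
  · exact ((contDiff_sqC M).inv (sqC_ne M)).smul
      ((((((contDiff_muC M).mul (contDiff_lap (contDiff_nC M))).add (contDiff_bdot hn hm)).smul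
        contDiff_const).add ((contDiff_const.mul (contDiff_muC M)).smul
          (contDiff_hessVec (contDiff_nC M) contDiff_const))).add
          ((contDiff_const.mul (contDiff_bdot hn contDiff_const)).smul hm))
  · simp only [div_eq_mul_inv]
    exact (contDiff_const.mul ((contDiff_sqC M).inv (sqC_ne M))).smul
      (((contDiff_muC M).smul (contDiff_grad (contDiff_lap (contDiff_mC M)))).add
        (contDiff_hessVec (contDiff_mC M) hm))
  · simp only [div_eq_mul_inv]
    exact ((contDiff_muC M).mul (((contDiff_AC M).add (contDiff_muC M)).inv hne)).mul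
      ((((contDiff_AC M).sub (contDiff_const.mul (contDiff_muC M))).mul
        (contDiff_bdot hn contDiff_const)).add
        ((((contDiff_muC M).sub (contDiff_AC M)).mul (contDiff_lap (contDiff_mC M))).mul
          contDiff_const))

theorem smoothC_cbt (θ : C3) : SmoothC (cbt M θ) := fun V => by
  show ContDiff ℝ ∞ fun x =>
    ((-((2 * M.sqC x * V.2) • hessVec M.mC x θ) - (bdot θ V.1 * M.mC x) • grad M.muC x,
      M.cC x * bdot θ V.1) : Amp)
  exact (((((contDiff_const.mul (contDiff_sqC M)).mul contDiff_const).smul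
    (contDiff_hessVec (contDiff_mC M) contDiff_const)).neg).sub
    ((contDiff_const.mul (contDiff_mC M)).smul (contDiff_grad (contDiff_muC M)))).prodMk
    ((contDiff_cC M).mul contDiff_const)

/-- The coefficients of the conjugated reduced system. -/
def coeff (θ : C3) : Coeff where
  b := cb M
  b0 := cb0 M
  bt := cbt M θ
  hb := smoothC_cb M
  hb0 := smoothC_cb0 M
  hbt := smoothC_cbt M θ

theorem conjReduced_eq (θ : C3) (τ : ℝ) {u : Space → Amp} (hu : ContDiff ℝ ∞ u) (x : Space) :
    M.conjReduced θ τ u x = op θ τ (coeff M θ) u x := by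
  have h0 : Differentiable ℝ u := smooth_diff hu
  have e1 : ∀ i, pd i (fun y => (u y).1) = fun y => (pd i u y).1 := fun i => funext (pd_fst h0 i)
  have e2 : ∀ i, pd i (fun y => (u y).2) = fun y => (pd i u y).2 := fun i => funext (pd_snd h0 i)
  have e3 : ∀ i, pd i (fun y => (u y).1 i) x = (pd i u x).1 i := fun i => by
    rw [pd_coord (smooth_diff (contDiff_fst hu)), pd_fst h0]
  have e4 : grad (fun y => (u y).2) x = fun i => (pd i u x).2 := funext fun i => pd_snd h0 i x
  simp only [Moduli.conjReduced, Moduli.reduced, Moduli.transport, op, coeff, cb, cb0, cbt, lap,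
    divv, e4, Dth, e1, e2, e3, pd_fst (smooth_diff (contDiff_pd hu _)),
    pd_snd (smooth_diff (contDiff_pd hu _)), LinearMap.coe_toContinuousLinearMap', LinearMap.coe_mk,
    AddHom.coe_mk]
  ext <;> simp [hessVec, Fin.sum_univ_three] <;> ring

end

end Vale.Agent.P136.Full.Solve
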