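import Mathlib
import Vale.Agent.P136.Full.Defs
import Vale.Agent.P136.Full.Solve.Amp
import Vale.Agent.P136.Full.Solve.Calc
import Vale.Agent.P136.Full.Solve.Oper
import Vale.Agent.P136.Full.Solve.Dual
import Vale.Agent.P136.Full.Solve.Moll
import Vale.Agent.P136.Full.Solve.Commutator

/-!
# P136: smooth approximate solutions from square integrable ones
-/

open MeasureTheory Filter Metric
open scoped Topology ContDiff ComplexConjugate

namespace Vale.Agent.P136.Full.Solve

noncomputable section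

/-- The right hand side `(∑ ∂ᵢ Gᵢ + F.1, F.2)`. -/
def rhs (G : Fin 3 → Space → C3) (F : Space → Amp) (x : Space) : Amp :=
  ((∑ i, pd i (G i) x) + (F x).1, (F x).2)

theorem contDiff_rhs {G : Fin 3 → Space → C3} {F : Space → Amp} (hG : ∀ i, ContDiff ℝ ∞ (G i))
    (hF : ContDiff ℝ ∞ F) : ContDiff ℝ ∞ (rhs G F) :=
  ((ContDiff.sum fun i _ => contDiff_pd (hG i) i).add (contDiff_fst hF)).prodMk (contDiff_snd hF)

theorem integral_rhs_dot {R : ℝ} {G : Fin 3 → Space → C3} {F ψ : Space → Amp}
    (hG : ∀ i, ContDiff ℝ ∞ (G i)) (hF : ContDiff ℝ ∞ F) (hψ : IsTest R ψ) :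
    ∫ x, dot4 (rhs G F x) (ψ x) = ell G F ψ := by
  have hP : ∀ i, ContDiff ℝ ∞ fun x => dot4 ((G i x, 0) : Amp) (ψ x) := fun i =>
    contDiff_dot4 ((hG i).prodMk contDiff_const) hψ.1
  have hP0 : ∀ i x, R < ‖x‖ → dot4 ((G i x, 0) : Amp) (ψ x) = 0 := fun i x hx => by
    simp [hψ.2 x hx, dot4, bdot]
  have i1 : Integrable fun x => dot4 (rhs G F x) (ψ x) :=
    integrable_of_bound (continuous_dot4 (contDiff_rhs hG hF).continuous hψ.1.continuous) (R := R)
      fun x hx => by simp [hψ.2 x hx, dot4, bdot]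
  have i2 := ell_integrable (R := R) (fun i => (hG i).continuous) hF.continuous hψ
  have i3 : ∀ i ∈ Finset.univ, Integrable fun x => pd i (fun y => dot4 ((G i y, 0) : Amp) (ψ y)) x :=
    fun i _ => integrable_of_bound (continuous_pd (hP i) i) (R := R) fun x hx =>
      pd_eq_zero_outside (hP0 i) i hx
  rw [ell, ← sub_eq_zero, ← integral_sub i1 i2]
  have key : ∀ x, dot4 (rhs G F x) (ψ x) -
      (dot4 (F x) (ψ x) - ∑ i, dot4 ((G i x, 0) : Amp) (pd i ψ x)) =
        ∑ i, pd i (fun y => dot4 ((G i y, 0) : Amp) (ψ y)) x := by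
    intro x
    have e : ∀ i, pd i (fun y => ((G i y, 0) : Amp)) x = ((pd i (G i) x, 0) : Amp) := fun i => by
      have h1 : Differentiable ℝ fun y => ((G i y, 0) : Amp) :=
        smooth_diff ((hG i).prodMk contDiff_const)
      refine Prod.ext ?_ ?_
      · exact (pd_fst h1 i x).symm
      · exact ((pd_snd h1 i x).symm.trans (pd_const _ i x))
    simp only [pd_dot4 ((hG _).prodMk contDiff_const) hψ.1, e, rhs]
    simp [dot4, bdot, Fin.sum_univ_three]
    ring
  simp only [key]
  rw [integral_finsetSum _ i3]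
  exact Finset.sum_eq_zero fun i _ =>
    integral_pd ((hP i).of_le (by simp)) (hasCompactSupport_of_bound (hP0 i)) i

theorem ampSqr_eq_dot4 (a : Amp) :
    ampSqr a = (∑ j, ‖dot4 a (e1 j)‖ ^ 2) + ‖dot4 a e2‖ ^ 2 := by
  simp [ampSqr, dot4, bdot, e1, e2, Fin.sum_univ_three]

/-- The translated kernel tested against a vector. -/
def probe (δ : ℝ) (x : Space) (e : Amp) (z : Space) : Amp :=
  (((δ ^ 3)⁻¹ * eta (δ⁻¹ • (x - z)) : ℝ) : ℂ) • e

theorem probe_test {δ r R : ℝ} (h0 : 0 < δ) (h1 : δ ≤ 1) (hR : r + 1 ≤ R) {x : Space}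
    (hx : ‖x‖ ≤ r) (e : Amp) : IsTest R (probe δ x e) := by
  refine ⟨(Complex.ofRealCLM.contDiff.comp (contDiff_const.mul
    (eta_smooth.comp ((contDiff_const.sub contDiff_id).const_smul δ⁻¹)))).smul contDiff_const,
    fun z hz => ?_⟩
  have h2 : ‖z‖ ≤ ‖x - z‖ + ‖x‖ := by
    simpa [norm_sub_rev] using norm_add_le (z - x) x
  have h3 : 1 < ‖δ⁻¹ • (x - z)‖ := by
    rw [norm_smul, norm_inv, Real.norm_eq_abs, abs_of_pos h0, ← div_eq_inv_mul, lt_div_iff₀ h0]
    linarith
  simp [probe, eta_eq_zero h3]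

theorem pd_shift {E : Type*} [NormedAddCommGroup E] [NormedSpace ℂ E] {φ : Space → E}
    (hφ : Differentiable ℝ φ) (i : Fin 3) (x z : Space) :
    pd i (fun y => φ (y - x)) z = pd i φ (z - x) := by
  have h : HasFDerivAt (fun y => φ (y - x))
      ((fderiv ℝ φ (z - x)).comp (ContinuousLinearMap.id ℝ Space)) z :=
    (hφ (z - x)).hasFDerivAt.comp z ((hasFDerivAt_id z).sub_const x)
  rw [pd, h.fderiv]
  rfl

theorem energyT_probe_bound (θ : C3) (τ : ℝ) (K : Coeff) {δ r R : ℝ} (h0 : 0 < δ) (h1 : δ ≤ 1)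
    (hR : r + 1 ≤ R) (e : Amp) :
    ∃ M, ∀ x : Space, ‖x‖ ≤ r → energyT θ τ K (probe δ x e) ≤ M := by
  set φ : Space → Amp := probe δ 0 e with hφdef
  have hφ : ContDiff ℝ ∞ φ :=
    (Complex.ofRealCLM.contDiff.comp (contDiff_const.mul
      (eta_smooth.comp ((contDiff_const.sub contDiff_id).const_smul δ⁻¹)))).smul contDiff_const
  have hsh : ∀ x, probe δ x e = fun z => φ (z - x) := fun x => by
    funext z; simp [hφdef, probe]
  have p1 : ∀ i x, pd i (fun z => φ (z - x)) = fun z => pd i φ (z - x) := fun i x =>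
    funext (pd_shift (smooth_diff hφ) i x)
  set Φ : Space × Space → ℝ := fun p => ampSqr (opT θ τ K (probe δ p.1 e) p.2) with hΦ
  have hc : Continuous Φ := by
    have q0 : Continuous fun p : Space × Space => φ (p.2 - p.1) :=
      hφ.continuous.comp (continuous_snd.sub continuous_fst)
    have q1 : ∀ i, Continuous fun p : Space × Space => pd i φ (p.2 - p.1) := fun i =>
      (continuous_pd hφ i).comp (continuous_snd.sub continuous_fst)
    have q2 : ∀ i, Continuous fun p : Space × Space => pd i (pd i φ) (p.2 - p.1) := fun i =>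
      (continuous_pd (contDiff_pd hφ i) i).comp (continuous_snd.sub continuous_fst)
    simp only [hΦ, hsh, opT, op, lap, Dth, p1, pd_shift (smooth_diff (contDiff_pd hφ _))]
    have hb : ∀ B : Space → Amp →L[ℂ] Amp, SmoothC B → ∀ g : Space × Space → Amp, Continuous g →
        Continuous fun p : Space × Space => B p.2 (g p) := fun B hB g hg =>
      (hB.continuous.comp continuous_snd).clm_apply hg
    have s1 : Continuous fun p : Space × Space => ∑ i, pd i (pd i φ) (p.2 - p.1) :=
      continuous_finsetSum _ fun i _ => q2 i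
    have s2 : Continuous fun p : Space × Space => ∑ i, (-θ) i • pd i φ (p.2 - p.1) :=
      continuous_finsetSum _ fun i _ => (q1 i).const_smul ((-θ) i)
    have s3 : Continuous fun p : Space × Space => ∑ i, K.dual.b i p.2 (pd i φ (p.2 - p.1)) :=
      continuous_finsetSum _ fun i _ => hb _ (K.dual.hb i) _ (q1 i)
    have hA : Continuous (ampSqr : Amp → ℝ) := by unfold ampSqr; fun_prop
    have s4 : Continuous fun p : Space × Space => K.dual.b0 p.2 (φ (p.2 - p.1)) :=
      hb _ K.dual.hb0 _ q0
    have s5 : Continuous fun p : Space × Space => (τ : ℂ) • K.dual.bt p.2 (φ (p.2 - p.1)) :=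
      (hb _ K.dual.hbt _ q0).const_smul (τ : ℂ)
    have s2' : Continuous fun p : Space × Space =>
        (2 * (τ : ℂ)) • ∑ i, (-θ) i • pd i φ (p.2 - p.1) := s2.const_smul (2 * (τ : ℂ))
    have hall : Continuous fun p : Space × Space =>
        (∑ i, pd i (pd i φ) (p.2 - p.1)) + (2 * (τ : ℂ)) • (∑ i, (-θ) i • pd i φ (p.2 - p.1)) +
          (∑ i, K.dual.b i p.2 (pd i φ (p.2 - p.1))) + K.dual.b0 p.2 (φ (p.2 - p.1)) +
          (τ : ℂ) • K.dual.bt p.2 (φ (p.2 - p.1)) := (((s1.add s2').add s3).add s4).add s5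
    exact hA.comp hall
  obtain ⟨M, hM⟩ := ((isCompact_closedBall (0 : Space) r).prod
    (isCompact_closedBall (0 : Space) R)).exists_bound_of_continuousOn hc.continuousOn
  refine ⟨|M| * (volume : Measure Space).real (closedBall (0 : Space) R), fun x hx => ?_⟩
  have hs : ∀ z, z ∉ closedBall (0 : Space) R → ampSqr (opT θ τ K (probe δ x e) z) = 0 :=
    fun z hz => by
      rw [opT, op_eq_zero_outside _ _ _ (probe_test h0 h1 hR hx e).2 (by simpa using hz),
        ampSqr_zero]
  rw [energyT, ← setIntegral_eq_integral_of_forall_compl_eq_zero hs]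
  refine (Real.le_norm_self _).trans (norm_setIntegral_le_of_norm_le_const
    measure_closedBall_lt_top fun z hz => ?_)
  exact (hM (x, z) ⟨mem_closedBall_zero_iff.2 hx, hz⟩).trans (le_abs_self M)

theorem setIntegral_ampSqr_add_le {r : ℝ} {a b : Space → Amp} (ha : Continuous a)
    (hb : Continuous b) :
    ∫ x in ball (0 : Space) r, ampSqr (a x + b x) ≤
      2 * (∫ x in ball (0 : Space) r, ampSqr (a x)) +
        2 * ∫ x in ball (0 : Space) r, ampSqr (b x) := by
  have i : ∀ {f : Space → Amp}, Continuous f →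
      IntegrableOn (fun x => ampSqr (f x)) (ball (0 : Space) r) := fun hf =>
    ((continuous_ampSqr hf).continuousOn.integrableOn_compact
      (isCompact_closedBall (0 : Space) r)).mono_set ball_subset_closedBall
  rw [← integral_const_mul, ← integral_const_mul,
    ← integral_add ((i ha).const_mul 2) ((i hb).const_mul 2)]
  exact integral_mono (i (ha.add hb)) (((i ha).const_mul 2).add ((i hb).const_mul 2))
    fun x => ampSqr_add_le _ _

theorem setIntegral_ampSqr_le {r ε : ℝ} {f : Space → Amp}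
    (h : ∀ x, ‖x‖ ≤ r → ampSqr (f x) ≤ ε) :
    ∫ x in ball (0 : Space) r, ampSqr (f x) ≤ ε * (volume : Measure Space).real (ball (0 : Space) r) :=
  (Real.le_norm_self _).trans (norm_setIntegral_le_of_norm_le_const measure_ball_lt_top fun x hx => by
    rw [Real.norm_eq_abs, abs_of_nonneg (ampSqr_nonneg _)]
    exact h x (mem_ball_zero_iff.1 hx).le)

theorem avg_L2 : ∃ C, 0 ≤ C ∧ ∀ (δ r R : ℝ) (u : Space → Amp), IsTest R u →
    ∫ x in ball (0 : Space) r, ampSqr (avg δ u x) ≤ C * ∫ x, ampSqr (u x) := by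
  obtain ⟨K, hK0, hK⟩ := exists_eta_bound
  exact ⟨4 * K ^ 2 * vol1 ^ 2, by positivity, fun δ r R u hu =>
    ampSqr_L2_le hu δ fun x _ => norm_avg_le (fun y => (hK y).1) hu.1.continuous δ x⟩

/-- Smooth approximate solutions. -/
theorem exists_smooth (θ : C3) (τ : ℝ) (K : Coeff) {r R : ℝ} (hR : r + 1 ≤ R)
    {G : Fin 3 → Space → C3} {F : Space → Amp} (hG : ∀ i, ContDiff ℝ ∞ (G i))
    (hF : ContDiff ℝ ∞ F) {U : ℕ → Space → Amp} {ε : ℕ → ℝ} (hε : Tendsto ε atTop (𝓝 0))
    (hU : ∀ k, IsTest R (U k))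
    (hc : Tendsto (fun q : ℕ × ℕ => ∫ x, ampSqr (U q.1 x - U q.2 x)) atTop (𝓝 0))
    (hw : ∀ k ψ, IsTest R ψ →
      ‖(∫ x, dot4 (U k x) (opT θ τ K ψ x)) - ell G F ψ‖ ^ 2 ≤ ε k * energyT θ τ K ψ) :
    ∃ z : ℕ → Space → Amp, (∀ n, ContDiff ℝ ∞ (z n)) ∧
      (∀ n, ∃ k, ∃ δ, z n = avg δ (U k)) ∧
      Tendsto (fun q : ℕ × ℕ => ∫ x in ball (0 : Space) r, ampSqr (z q.1 x - z q.2 x)) atTop (𝓝 0) ∧
      Tendsto (fun n => ∫ x in ball (0 : Space) r, ampSqr (op θ τ K (z n) x - rhs G F x)) atTop
        (𝓝 0) := by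
  set d : ℕ → ℝ := fun n => 1 / (n + 1 : ℝ) with hd
  have hd0 : ∀ n, 0 < d n := fun n => by simp only [hd]; positivity
  have hd1 : ∀ n, d n ≤ 1 := fun n => by
    simp only [hd]; rw [div_le_one (by positivity)]; simp
  have hdt : Tendsto d atTop (𝓝 0) := tendsto_one_div_add_atTop_nhds_zero_nat
  choose M hM using fun (n : ℕ) (e : Amp) => energyT_probe_bound θ τ K (hd0 n) (hd1 n) hR e
  have hsel : ∀ n : ℕ, ∃ k, n ≤ k ∧ ∀ j, |ε k| * |M n (e1 j)| ≤ d n ∧ |ε k| * |M n e2| ≤ d n := by
    intro n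
    have ht : ∀ e, ∀ᶠ k in atTop, |ε k| * |M n e| ≤ d n := fun e => by
      have : Tendsto (fun k => |ε k| * |M n e|) atTop (𝓝 0) := by
        simpa using hε.abs.mul_const |M n e|
      exact this.eventually_le_const (hd0 n)
    have := ((eventually_all.2 fun j => ht (e1 j)).and ((ht e2).and (eventually_ge_atTop n))).exists
    obtain ⟨k, hk1, hk2, hk3⟩ := this
    exact ⟨k, hk3, fun j => ⟨hk1 j, hk2⟩⟩
  choose k hkn hk using hsel
  set z : ℕ → Space → Amp := fun n => avg (d n) (U (k n)) with hz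
  have hzs : ∀ n, ContDiff ℝ ∞ (z n) := fun n => contDiff_avg (hU _).1 _
  refine ⟨z, hzs, fun n => ⟨k n, d n, rfl⟩, ?_, ?_⟩
  · obtain ⟨Ca, hCa0, hCa⟩ := avg_L2
    rw [← prod_atTop_atTop_eq] at hc ⊢
    have hdiff : ∀ s : ℝ, 0 < s → ∀ᶠ n in atTop,
        ∫ x in ball (0 : Space) r, ampSqr (z n x - U (k n) x) ≤ s := by
      intro s hs
      have hs' : (0 : ℝ) < s / (8 * (Ca + 1)) := by positivity
      obtain ⟨N, hN⟩ := eventually_atTop.1 (prod_atTop_atTop_eq (α := ℕ) (β := ℕ) ▸
        (hc.eventually_le_const hs'))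
      set V := (volume : Measure Space).real (ball (0 : Space) r) with hV
      have hs'' : (0 : ℝ) < s / (16 * (V + 1)) := by positivity
      obtain ⟨δ₀, hδ₀, hδ⟩ := avg_tendsto (hU N.1).1.continuous r (Real.sqrt_pos.2 (half_pos hs''))
      filter_upwards [hdt.eventually_le_const hδ₀, eventually_ge_atTop N.1,
        eventually_ge_atTop N.2] with n hn1 hn2 hn3
      have b1 : ∫ x, ampSqr (U (k n) x - U N.1 x) ≤ s / (8 * (Ca + 1)) := by
        have hb := hN (N.1, k n) ⟨le_rfl, hn3.trans (hkn n)⟩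
        refine le_trans (le_of_eq ?_) hb
        congr 1; funext x; rw [← ampSqr_neg, neg_sub]
      set a : Space → Amp := fun x => U (k n) x - U N.1 x with ha
      have hat : IsTest R a := ⟨(hU _).1.sub (hU _).1, fun x hx => by
        simp [ha, (hU (k n)).2 x hx, (hU N.1).2 x hx]⟩
      have e : ∀ x, z n x - U (k n) x =
          (avg (d n) a x + -a x) + (avg (d n) (U N.1) x - U N.1 x) := by
        intro x
        simp only [hz, ha, avg_sub (hU (k n)).1.continuous (hU N.1).1.continuous]
        abel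
      have c1 : Continuous (avg (d n) a) := (contDiff_avg hat.1 _).continuous
      have c2 : Continuous fun x => avg (d n) (U N.1) x - U N.1 x :=
        ((contDiff_avg (hU N.1).1 _).continuous).sub (hU N.1).1.continuous
      simp only [e]
      have cna : Continuous fun x => -a x := hat.1.continuous.neg
      have c12 : Continuous fun x => avg (d n) a x + -a x := c1.add cna
      refine (setIntegral_ampSqr_add_le c12 c2).trans ?_
      have t1 := setIntegral_ampSqr_add_le (r := r) c1 cna
      have t2 : ∫ x in ball (0 : Space) r, ampSqr (-a x) ≤ ∫ x, ampSqr (a x) := by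
        simp only [ampSqr_neg]
        exact setIntegral_le_integral
          (integrable_of_bound (continuous_ampSqr hat.1.continuous) (R := R) fun x hx => by
            simp [hat.2 x hx, ampSqr_zero]) (Eventually.of_forall fun x => ampSqr_nonneg _)
      have t3 := hCa (d n) r R a hat
      have t4 : ∫ x in ball (0 : Space) r, ampSqr (avg (d n) (U N.1) x - U N.1 x) ≤
          4 * (s / (16 * (V + 1)) / 2) * V := by
        refine setIntegral_ampSqr_le fun x hx => (ampSqr_le _).trans ?_
        refine mul_le_mul_of_nonneg_left ?_ (by norm_num)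
        calc ‖avg (d n) (U N.1) x - U N.1 x‖ ^ 2
            ≤ Real.sqrt (s / (16 * (V + 1)) / 2) ^ 2 :=
              pow_le_pow_left₀ (norm_nonneg _) (hδ _ (hd0 n).le hn1 x hx) 2
          _ = _ := Real.sq_sqrt (by positivity)
      have hV0 : 0 ≤ V := measureReal_nonneg
      have e1 : (Ca + 1) * (s / (8 * (Ca + 1))) = s / 8 := by field_simp
      have e2 : (V + 1) * (s / (16 * (V + 1))) = s / 16 := by field_simp
      have hm := mul_le_mul_of_nonneg_left b1 (show 0 ≤ Ca + 1 by positivity)
      nlinarith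
    rw [Metric.tendsto_nhds]
    intro s hs
    have h2 := hdiff (s / 16) (by positivity)
    have h3 : ∀ᶠ q : ℕ × ℕ in atTop ×ˢ atTop,
        ∫ x, ampSqr (U (k q.1) x - U (k q.2) x) ≤ s / 16 := by
      obtain ⟨N, hN⟩ := eventually_atTop.1 (prod_atTop_atTop_eq (α := ℕ) (β := ℕ) ▸
        (hc.eventually_le_const (show 0 < s / 16 by positivity)))
      filter_upwards [(eventually_ge_atTop N.1).prod_mk (eventually_ge_atTop N.2)] with q hq
      exact hN (k q.1, k q.2) ⟨hq.1.trans (hkn _), hq.2.trans (hkn _)⟩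
    filter_upwards [h3, h2.prod_mk h2] with q hq1 hq2
    rw [Real.dist_0_eq_abs, abs_of_nonneg (integral_nonneg fun x => ampSqr_nonneg _)]
    have cz : ∀ n, Continuous fun x => z n x - U (k n) x := fun n =>
      (hzs n).continuous.sub (hU _).1.continuous
    have cU : Continuous fun x => U (k q.1) x - U (k q.2) x :=
      (hU _).1.continuous.sub (hU _).1.continuous
    have e : ∀ x, z q.1 x - z q.2 x = ((z q.1 x - U (k q.1) x) + -(z q.2 x - U (k q.2) x)) +
        (U (k q.1) x - U (k q.2) x) := fun x => by abel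
    simp only [e]
    have cn : Continuous fun x => -(z q.2 x - U (k q.2) x) := (cz q.2).neg
    have c12 : Continuous fun x => (z q.1 x - U (k q.1) x) + -(z q.2 x - U (k q.2) x) :=
      (cz q.1).add cn
    refine (setIntegral_ampSqr_add_le c12 cU).trans_lt ?_
    have t1 := setIntegral_ampSqr_add_le (r := r) (cz q.1) cn
    simp only [ampSqr_neg] at t1
    have t2 : ∫ x in ball (0 : Space) r, ampSqr (U (k q.1) x - U (k q.2) x) ≤
        ∫ x, ampSqr (U (k q.1) x - U (k q.2) x) :=
      setIntegral_le_integral (integrable_of_bound (continuous_ampSqr cU) (R := R) fun x hx => by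
        simp [(hU (k q.1)).2 x hx, (hU (k q.2)).2 x hx, ampSqr_zero])
        (Eventually.of_forall fun x => ampSqr_nonneg _)
    linarith [hq2.1, hq2.2]
  · obtain ⟨Cc, hCc0, hCc⟩ := comm_L2 K τ r R
    rw [Metric.tendsto_atTop]
    intro s hs
    set V := (volume : Measure Space).real (ball (0 : Space) r) with hV
    have hs' : (0 : ℝ) < s / (32 * (Cc + 1)) := by positivity
    obtain ⟨N, hN⟩ := eventually_atTop.1 (hc.eventually_le_const hs')
    have hs2 : (0 : ℝ) < s / (256 * (V + 1)) := by positivity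
    obtain ⟨δ₁, hδ₁, hcf⟩ := comm_tendsto K τ r (hU N.1).1 (Real.sqrt_pos.2 hs2)
    obtain ⟨δ₂, hδ₂, haf⟩ :=
      avg_tendsto (contDiff_rhs hG hF).continuous r (Real.sqrt_pos.2 hs2)
    obtain ⟨n₀, hn₀⟩ := eventually_atTop.1 ((hdt.eventually_le_const
      (lt_min hδ₁ (lt_min hδ₂ hs2))).and ((eventually_ge_atTop N.1).and (eventually_ge_atTop N.2)))
    refine ⟨n₀, fun n hn => ?_⟩
    obtain ⟨hdn, hn2, hn3⟩ := hn₀ n hn
    simp only [le_min_iff] at hdn
    rw [Real.dist_0_eq_abs, abs_of_nonneg (integral_nonneg fun x => ampSqr_nonneg _)]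
    set f := rhs G F
    set a : Space → Amp := fun x => U (k n) x - U N.1 x with ha
    have hat : IsTest R a := ⟨(hU _).1.sub (hU _).1, fun x hx => by
      simp [ha, (hU (k n)).2 x hx, (hU N.1).2 x hx]⟩
    have hopc : ∀ u, ContDiff ℝ ∞ u → Continuous (comm K τ (d n) u) := fun u hu => by
      have : comm K τ (d n) u = fun x => op θ τ K (avg (d n) u) x - avg (d n) (op θ τ K u) x :=
        funext fun x => by rw [op_avg θ τ K hu]; abel
      rw [this]
      exact ((contDiff_op θ τ K (contDiff_avg hu _)).sub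
        (contDiff_avg (contDiff_op θ τ K hu) _)).continuous
    have hf : ContDiff ℝ ∞ f := contDiff_rhs hG hF
    set g : Space → Amp := fun y => op θ τ K (U (k n)) y - f y with hg
    have hgs : ContDiff ℝ ∞ g := (contDiff_op θ τ K (hU _).1).sub hf
    have e : ∀ x, op θ τ K (z n) x - f x = (comm K τ (d n) a x + comm K τ (d n) (U N.1) x) +
        (avg (d n) g x + (avg (d n) f x - f x)) := by
      intro x
      have h1 := op_avg θ τ K (hU (k n)).1 (d n) x
      have h2 := op_avg θ τ K (hU N.1).1 (d n) x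
      have h3 := op_avg θ τ K hat.1 (d n) x
      have e3 : avg (d n) a = fun y => avg (d n) (U (k n)) y - avg (d n) (U N.1) y :=
        funext fun y => avg_sub (hU _).1.continuous (hU _).1.continuous _ y
      have e4 : op θ τ K a = fun y => op θ τ K (U (k n)) y - op θ τ K (U N.1) y :=
        funext fun y => op_sub θ τ K (hU _).1 (hU _).1 y
      rw [e3, op_sub θ τ K (contDiff_avg (hU _).1 _) (contDiff_avg (hU _).1 _), e4,
        avg_sub (contDiff_op θ τ K (hU _).1).continuous (contDiff_op θ τ K (hU _).1).continuous]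
        at h3
      rw [hg, avg_sub (contDiff_op θ τ K (hU _).1).continuous hf.continuous]
      simp only [hz]
      rw [h1]
      rw [h1, h2] at h3
      linear_combination (norm := module) h3
    have c1 := hopc a hat.1
    have c2 := hopc _ (hU N.1).1
    have c3 : Continuous (avg (d n) g) := (contDiff_avg hgs _).continuous
    have c4 : Continuous fun x => avg (d n) f x - f x :=
      ((contDiff_avg hf _).continuous).sub hf.continuous
    have b1 : ∫ x, ampSqr (a x) ≤ s / (32 * (Cc + 1)) := by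
      have hb := hN (N.1, k n) ⟨le_rfl, hn3.trans (hkn n)⟩
      refine le_trans (le_of_eq ?_) hb
      congr 1; funext x; rw [← ampSqr_neg, neg_sub]
    have t1 := hCc (d n) (hd0 n) (hd1 n) a hat
    have t2 : ∫ x in ball (0 : Space) r, ampSqr (comm K τ (d n) (U N.1) x) ≤
        4 * (s / (256 * (V + 1))) * V :=
      setIntegral_ampSqr_le fun x hx => (ampSqr_le _).trans (mul_le_mul_of_nonneg_left
        ((pow_le_pow_left₀ (norm_nonneg _) (hcf _ (hd0 n).le hdn.1 x hx) 2).trans
          (Real.sq_sqrt hs2.le).le) (by norm_num))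
    have t4 : ∫ x in ball (0 : Space) r, ampSqr (avg (d n) f x - f x) ≤
        4 * (s / (256 * (V + 1))) * V :=
      setIntegral_ampSqr_le fun x hx => (ampSqr_le _).trans (mul_le_mul_of_nonneg_left
        ((pow_le_pow_left₀ (norm_nonneg _) (haf _ (hd0 n).le hdn.2.1 x hx) 2).trans
          (Real.sq_sqrt hs2.le).le) (by norm_num))
    have t3 : ∫ x in ball (0 : Space) r, ampSqr (avg (d n) g x) ≤
        4 * (s / (256 * (V + 1))) * V := by
      refine setIntegral_ampSqr_le fun x hx => ?_
      have hcomp : ∀ e : Amp, |ε (k n)| * |M n e| ≤ d n →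
          ‖dot4 (avg (d n) g x) e‖ ^ 2 ≤ s / (256 * (V + 1)) := by
        intro e hle
        have ht := probe_test (hd0 n) (hd1 n) hR hx e
        have i1 : Integrable fun y => dot4 (op θ τ K (U (k n)) y) (probe (d n) x e y) :=
          integrable_of_bound (continuous_dot4 (contDiff_op θ τ K (hU _).1).continuous
            ht.1.continuous) (R := R) fun y hy => by simp [ht.2 y hy, dot4, bdot]
        have i2 : Integrable fun y => dot4 (f y) (probe (d n) x e y) :=
          integrable_of_bound (continuous_dot4 hf.continuous ht.1.continuous) (R := R)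
            fun y hy => by simp [ht.2 y hy, dot4, bdot]
        rw [avg_dot4 hgs.continuous (hd0 n)]
        change ‖∫ y, dot4 (g y) (probe (d n) x e y)‖ ^ 2 ≤ _
        simp only [hg, dot4_sub_left]
        rw [integral_sub i1 i2, green θ τ K (hU _).1 ht.1 ht.2, integral_rhs_dot hG hF ht]
        refine (hw _ _ ht).trans ?_
        have hE0 : 0 ≤ energyT θ τ K (probe (d n) x e) := integral_nonneg fun y => ampSqr_nonneg _
        have hEM : energyT θ τ K (probe (d n) x e) ≤ |M n e| :=
          (hM n e x hx).trans (le_abs_self _)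
        exact ((mul_le_mul_of_nonneg_right (le_abs_self _) hE0).trans
          (mul_le_mul_of_nonneg_left hEM (abs_nonneg _))).trans (hle.trans hdn.2.2)
      rw [ampSqr_eq_dot4, Fin.sum_univ_three]
      linarith [hcomp _ (hk n 0).1, hcomp _ (hk n 1).1, hcomp _ (hk n 2).1, hcomp _ (hk n 0).2]
    simp only [e]
    have c12 : Continuous fun x => comm K τ (d n) a x + comm K τ (d n) (U N.1) x := c1.add c2
    have c34 : Continuous fun x => avg (d n) g x + (avg (d n) f x - f x) := c3.add c4
    refine (setIntegral_ampSqr_add_le c12 c34).trans_lt ?_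
    have u1 := setIntegral_ampSqr_add_le (r := r) c1 c2
    have u2 := setIntegral_ampSqr_add_le (r := r) c3 c4
    have hV0 : 0 ≤ V := measureReal_nonneg
    have e1 : (Cc + 1) * (s / (32 * (Cc + 1))) = s / 32 := by field_simp
    have e2 : (V + 1) * (s / (256 * (V + 1))) = s / 256 := by field_simp
    have hm := mul_le_mul_of_nonneg_left b1 (show 0 ≤ Cc + 1 by positivity)
    nlinarith [integral_nonneg (μ := volume) (f := fun x => ampSqr (a x)) fun x => ampSqr_nonneg _]

end

end Vale.Agent.P136.Full.Solve
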