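import Mathlib
import Vale.Agent.P136.Full.Defs
import Vale.Agent.P136.Full.Spec
import Vale.Agent.P136.Full.Solve.Amp
import Vale.Agent.P136.Full.Solve.Calc
import Vale.Agent.P136.Full.Solve.Oper
import Vale.Agent.P136.Full.Solve.Coef
import Vale.Agent.P136.Full.Solve.Dual
import Vale.Agent.P136.Full.Solve.Moll
import Vale.Agent.P136.Full.Solve.Commutator
import Vale.Agent.P136.Full.Solve.Limit
import Vale.Agent.P136.Full.Solve.Apriori

/-!
# P136: approximate solutions of the conjugated reduced system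
-/

open MeasureTheory Filter Metric
open scoped Topology ContDiff ComplexConjugate

namespace Vale.Agent.P136.Full.Solve

noncomputable section

theorem rhs_eq {G : Fin 3 → Space → C3} (hG : ∀ i, ContDiff ℝ ∞ (G i)) (F : Space → Amp)
    (x : Space) : rhs G F x = divG G x + F x := by
  have e : ∀ i, pd i (fun y => ((G i y, 0) : Amp)) x = ((pd i (G i) x, 0) : Amp) := fun i => by
    have h1 : Differentiable ℝ fun y => ((G i y, 0) : Amp) :=
      smooth_diff ((hG i).prodMk contDiff_const)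
    exact Prod.ext (pd_fst h1 i x).symm ((pd_snd h1 i x).symm.trans (pd_const _ i x))
  refine Prod.ext ?_ ?_ <;> simp [rhs, divG, e, Prod.fst_sum, Prod.snd_sum]

theorem integral_ampSqr_eq_zero {F : Space → Amp} (hF : Continuous F) (hs : HasCompactSupport F)
    (h : ∫ x, ampSqr (F x) = 0) (x : Space) : F x = 0 := by
  by_contra hx
  refine absurd h (ne_of_gt ?_)
  refine (continuous_ampSqr hF).integral_pos_of_hasCompactSupport_nonneg_nonzero (x := x)
    (hs.comp_left ampSqr_zero) (fun y => ampSqr_nonneg _) fun h0 => hx ?_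
  have h1 := norm_sq_le_ampSqr (F x)
  rw [h0] at h1
  exact norm_eq_zero.1 (sq_eq_zero_iff.1 (le_antisymm h1 (sq_nonneg _)))

theorem pd_zero_fun {E : Type*} [NormedAddCommGroup E] [NormedSpace ℂ E] (i : Fin 3) :
    pd i (fun _ : Space => (0 : E)) = fun _ => 0 := funext (pd_const 0 i)

theorem sobSqr_nonneg (u : Space → Amp) (x : Space) : 0 ≤ sobSqr u x :=
  add_nonneg (add_nonneg (ampSqr_nonneg _) (Finset.sum_nonneg fun _ _ => ampSqr_nonneg _))
    (Finset.sum_nonneg fun _ _ => Finset.sum_nonneg fun _ _ => sq_nonneg _)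

theorem data_pair (G : Fin 3 → Space → C3) (F : Space → Amp) :
    dataSqr G F = (∫ x, ampSqr (F x)) + ∑ i, ∫ x, ampSqr ((G i x, 0) : Amp) := by
  simp [dataSqr, ampSqr_pair]

theorem data_nonneg (G : Fin 3 → Space → C3) (F : Space → Amp) : 0 ≤ dataSqr G F := by
  rw [data_pair]
  exact add_nonneg (integral_nonneg fun x => ampSqr_nonneg _)
    (Finset.sum_nonneg fun i _ => integral_nonneg fun x => ampSqr_nonneg _)

theorem solve_zero (M : Moduli) (θ : C3) (τ R C : ℝ) (p : ℕ) (hCτ : 0 ≤ C * τ ^ p)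
    {G : Fin 3 → Space → C3} {F : Space → Amp}
    (hG : ∀ i, ContDiff ℝ ∞ (G i) ∧ HasCompactSupport (G i)) (hF : Continuous F)
    (hFs : HasCompactSupport F) (hD : dataSqr G F = 0) :
    ∃ w : ℕ → Space → Amp, (∀ k, ContDiff ℝ ∞ (w k)) ∧
      (∀ k, ∫ x in ball (0 : Space) R, sobSqr (w k) x ≤ C * τ ^ p * dataSqr G F) ∧
      Tendsto (fun q : ℕ × ℕ => ∫ x in ball (0 : Space) R, sobSqr (w q.1 - w q.2) x) atTop (𝓝 0) ∧
      Tendsto (fun k => ∫ x in ball (0 : Space) R, ampSqr (M.conjReduced θ τ (w k) x -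
        ((∑ i, pd i (G i) x) + (F x).1, (F x).2))) atTop (𝓝 0) := by
  have hF0 : 0 ≤ ∫ x, ampSqr (F x) := integral_nonneg fun x => ampSqr_nonneg _
  have hG0 : ∀ i, 0 ≤ ∫ x, ampSqr ((G i x, 0) : Amp) := fun i =>
    integral_nonneg fun x => ampSqr_nonneg _
  have hsum : 0 ≤ ∑ i, ∫ x, ampSqr ((G i x, 0) : Amp) := Finset.sum_nonneg fun i _ => hG0 i
  rw [data_pair] at hD
  have hFz : ∀ x, F x = 0 := integral_ampSqr_eq_zero hF hFs (by linarith)
  have hGz : ∀ i x, G i x = 0 := fun i x => by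
    have hz := (Finset.sum_eq_zero_iff_of_nonneg fun j _ => hG0 j).1
      (show ∑ j, ∫ y, ampSqr ((G j y, 0) : Amp) = 0 by linarith) i (Finset.mem_univ i)
    exact congrArg Prod.fst (integral_ampSqr_eq_zero (F := fun y => ((G i y, 0) : Amp))
      (continuous_pair (fun j => (hG j).1.continuous) i)
      ((hG i).2.comp_left (g := fun a : C3 => ((a, 0) : Amp)) rfl) hz x)
  have hpd : ∀ i x, pd i (G i) x = 0 := fun i x =>
    pd_eq_zero_of_eventually i (Eventually.of_forall (hGz i))
  have hop : ∀ x, op θ τ (coeff M θ) (fun _ => (0 : Amp)) x = 0 := fun x =>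
    op_eq_zero_outside _ _ _ (R := ‖x‖ - 1) (fun _ _ => rfl) (by linarith)
  have hsob : ∀ x, sobSqr (fun _ => (0 : Amp)) x = 0 := fun x => by
    simp [sobSqr, hess, pd_zero_fun, ampSqr_zero]
  refine ⟨fun _ _ => 0, fun _ => contDiff_const, fun k => ?_, ?_, ?_⟩
  · simp only [hsob, integral_zero]
    exact mul_nonneg hCτ (data_nonneg G F)
  · have e : ((fun _ : Space => (0 : Amp)) - fun _ => 0) = fun _ => 0 := sub_self _
    simp only [e, hsob, integral_zero]
    exact tendsto_const_nhds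
  · simp [conjReduced_eq M θ τ contDiff_const, hop, hFz, hpd, ampSqr_zero, Prod.mk_zero_zero]

/-- The bound on a smooth approximate solution. -/
theorem solve_bound {θ : C3} {τ : ℝ} {K : Coeff} {R r Cp Cz : ℝ} {z F : Space → Amp}
    {G : Fin 3 → Space → C3} (hz : ContDiff ℝ ∞ z) (hG : ∀ i, ContDiff ℝ ∞ (G i))
    (hGs : ∀ i, HasCompactSupport (G i)) (hF : ContDiff ℝ ∞ F) (hFs : HasCompactSupport F)
    (hCp : 0 ≤ Cp) (hτ : 1 ≤ τ)
    (hap : ∫ x in ball (0 : Space) R, sobSqr z x ≤
      Cp * τ ^ 4 * ∫ x in ball (0 : Space) r, dens θ τ K z G x)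
    (hzb : ∫ x in ball (0 : Space) r, ampSqr (z x) ≤ Cz * dataSqr G F)
    (he : ∫ x in ball (0 : Space) r, ampSqr (op θ τ K z x - rhs G F x) ≤ dataSqr G F) :
    ∫ x in ball (0 : Space) R, sobSqr z x ≤ (Cp * (Cz + 4) + 1) * τ ^ 4 * dataSqr G F := by
  set e : Space → Amp := fun x => op θ τ K z x - rhs G F x with he'
  have hec : Continuous e := ((contDiff_op θ τ K hz).sub (contDiff_rhs hG hF)).continuous
  have hGc : Continuous fun x => ∑ i, ampSqr ((G i x, 0) : Amp) :=
    continuous_finsetSum _ fun i _ =>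
      continuous_ampSqr (continuous_pair (fun j => (hG j).continuous) i)
  have hzc' : Continuous fun x => ampSqr (z x) := continuous_ampSqr hz.continuous
  have hec' : Continuous fun x => ampSqr (e x + F x) := continuous_ampSqr (hec.add hF.continuous)
  have hsumc : Continuous fun x => ampSqr (z x) + ampSqr (e x + F x) := hzc'.add hec'
  have hd : (∫ x in ball (0 : Space) r, dens θ τ K z G x) =
      (∫ x in ball (0 : Space) r, ampSqr (z x)) +
        (∫ x in ball (0 : Space) r, ampSqr (e x + F x)) +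
        ∫ x in ball (0 : Space) r, ∑ i, ampSqr ((G i x, 0) : Amp) := by
    rw [← integral_add (integrableOn_ball' hzc' r) (integrableOn_ball' hec' r),
      ← integral_add (integrableOn_ball' hsumc r) (integrableOn_ball' hGc r)]
    refine integral_congr_ae (Eventually.of_forall fun x => ?_)
    simp [dens, he', rhs_eq hG]
    congr 2
    abel
  have b2 : ∫ x in ball (0 : Space) r, ampSqr (F x) ≤ ∫ x, ampSqr (F x) :=
    setIntegral_le_integral ((continuous_ampSqr hF.continuous).integrable_of_hasCompactSupport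
      (hFs.comp_left ampSqr_zero)) (Eventually.of_forall fun x => ampSqr_nonneg _)
  have iG : ∀ i, Integrable fun x => ampSqr ((G i x, 0) : Amp) := fun i =>
    (continuous_ampSqr (continuous_pair (fun j => (hG j).continuous) i)).integrable_of_hasCompactSupport
      ((hGs i).comp_left (g := fun a : C3 => ampSqr ((a, 0) : Amp)) (by simp [ampSqr]))
  have b3 : ∫ x in ball (0 : Space) r, ∑ i, ampSqr ((G i x, 0) : Amp) ≤
      ∑ i, ∫ x, ampSqr ((G i x, 0) : Amp) := by
    rw [← integral_finsetSum _ fun i _ => iG i]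
    exact setIntegral_le_integral (integrable_finsetSum _ fun i _ => iG i)
      (Eventually.of_forall fun x => Finset.sum_nonneg fun i _ => ampSqr_nonneg _)
  have b4 := setIntegral_ampSqr_add_le (r := r) hec hF.continuous
  have hD := data_pair G F
  have hsum0 : 0 ≤ ∑ i, ∫ x, ampSqr ((G i x, 0) : Amp) :=
    Finset.sum_nonneg fun i _ => integral_nonneg fun x => ampSqr_nonneg _
  have hF0 : 0 ≤ ∫ x, ampSqr (F x) := integral_nonneg fun x => ampSqr_nonneg _
  have hall : (∫ x in ball (0 : Space) r, dens θ τ K z G x) ≤ (Cz + 4) * dataSqr G F := by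
    rw [hd]; linarith
  refine hap.trans ((mul_le_mul_of_nonneg_left hall (by positivity)).trans ?_)
  have : 0 ≤ τ ^ 4 * dataSqr G F := mul_nonneg (by positivity) (data_nonneg G F)
  linarith

theorem dens_sub_eq {θ : C3} {τ : ℝ} {K : Coeff} {u v : Space → Amp} (hu : ContDiff ℝ ∞ u)
    (hv : ContDiff ℝ ∞ v) (x : Space) :
    dens θ τ K (u - v) (fun _ _ => 0) x =
      ampSqr (u x - v x) + ampSqr (op θ τ K u x - op θ τ K v x) := by
  have e1 : op θ τ K (u - v) x = op θ τ K u x - op θ τ K v x := op_sub θ τ K hu hv x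
  rw [dens, e1]
  simp [divG, pd_const, Prod.mk_zero_zero, ampSqr_zero]

theorem solve_cauchy {θ : C3} {τ : ℝ} {K : Coeff} {R r Cp : ℝ} {z : ℕ → Space → Amp}
    {f : Space → Amp} (hzs : ∀ n, ContDiff ℝ ∞ (z n)) (hf : Continuous f) (hCp : 0 ≤ Cp * τ ^ 4)
    (hap : ∀ p q, ∫ x in ball (0 : Space) R, sobSqr (z p - z q) x ≤
      Cp * τ ^ 4 * ∫ x in ball (0 : Space) r, dens θ τ K (z p - z q) (fun _ _ => 0) x)
    (hzc : Tendsto (fun q : ℕ × ℕ => ∫ x in ball (0 : Space) r, ampSqr (z q.1 x - z q.2 x))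
      atTop (𝓝 0))
    (hzr : Tendsto (fun n => ∫ x in ball (0 : Space) r, ampSqr (op θ τ K (z n) x - f x)) atTop
      (𝓝 0)) :
    Tendsto (fun q : ℕ × ℕ => ∫ x in ball (0 : Space) R, sobSqr (z q.1 - z q.2) x) atTop (𝓝 0) := by
  set e : ℕ → Space → Amp := fun n x => op θ τ K (z n) x - f x with he
  have hec : ∀ n, Continuous (e n) := fun n => ((contDiff_op θ τ K (hzs n)).continuous).sub hf
  have hlim : Tendsto (fun q : ℕ × ℕ => Cp * τ ^ 4 *
      ((∫ x in ball (0 : Space) r, ampSqr (z q.1 x - z q.2 x)) +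
        (2 * (∫ x in ball (0 : Space) r, ampSqr (e q.1 x)) +
          2 * ∫ x in ball (0 : Space) r, ampSqr (e q.2 x)))) atTop (𝓝 0) := by
    have h1 : Tendsto (fun q : ℕ × ℕ => ∫ x in ball (0 : Space) r, ampSqr (e q.1 x)) atTop (𝓝 0) :=
      hzr.comp (by rw [← prod_atTop_atTop_eq]; exact tendsto_fst)
    have h2 : Tendsto (fun q : ℕ × ℕ => ∫ x in ball (0 : Space) r, ampSqr (e q.2 x)) atTop (𝓝 0) :=
      hzr.comp (by rw [← prod_atTop_atTop_eq]; exact tendsto_snd)
    simpa using (hzc.add ((h1.const_mul 2).add (h2.const_mul 2))).const_mul (Cp * τ ^ 4)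
  refine squeeze_zero (fun q => integral_nonneg fun x => sobSqr_nonneg _ x) (fun q => ?_) hlim
  refine (hap q.1 q.2).trans (mul_le_mul_of_nonneg_left ?_ hCp)
  have hpt : ∀ x, dens θ τ K (z q.1 - z q.2) (fun _ _ => 0) x =
      ampSqr (z q.1 x - z q.2 x) + ampSqr (e q.1 x + -e q.2 x) := fun x => by
    rw [dens_sub_eq (hzs _) (hzs _)]
    simp only [he]
    congr 2
    abel
  simp only [hpt]
  have ca : Continuous fun x => ampSqr (z q.1 x - z q.2 x) :=
    continuous_ampSqr ((hzs _).continuous.sub (hzs _).continuous)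
  have cn : Continuous fun x => -e q.2 x := (hec _).neg
  have cs : Continuous fun x => ampSqr (e q.1 x + -e q.2 x) := continuous_ampSqr ((hec q.1).add cn)
  rw [integral_add (integrableOn_ball' ca r) (integrableOn_ball' cs r)]
  have b := setIntegral_ampSqr_add_le (r := r) (hec q.1) cn
  simp only [ampSqr_neg] at b
  exact add_le_add le_rfl b

end

end Vale.Agent.P136.Full.Solve

namespace Vale.Agent.P136.Full

open Solve

noncomputable section

/-- The Carleman estimate gives approximate solutions with polynomial bounds. -/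
theorem solve (hC : CarlemanStmt) : SolveStmt := by
  intro M θ hθ R
  obtain ⟨CA, τ₀, hCA, hτ₀, hdual⟩ := exists_dual hC hθ (|R| + 5) (coeff M θ)
  obtain ⟨Cp, hCp, hap⟩ := apriori θ (coeff M θ) R
  obtain ⟨Ca, hCa, havg⟩ := avg_L2
  refine ⟨Cp * (Ca * CA + 4) + 1, τ₀, 4, by positivity, hτ₀, fun τ hτ G F hG hF hFs => ?_⟩
  have h1τ : 1 ≤ τ := hτ₀.trans hτ
  have hGs : ∀ i, ContDiff ℝ ∞ (G i) := fun i => (hG i).1
  rcases (data_nonneg G F).eq_or_lt with hDz | hDpos
  · exact solve_zero M θ τ R _ 4 (by positivity) hG hF.continuous hFs hDz.symm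
  obtain ⟨U, ε, hε, hU, hUb, hUc, hUw⟩ :=
    hdual τ hτ G F (fun i => ⟨(hGs i).continuous, (hG i).2⟩) hF.continuous hFs
  obtain ⟨z, hzs, hzk, hzc, hzr⟩ := exists_smooth θ τ (coeff M θ)
    (show |R| + 4 + 1 ≤ |R| + 5 by linarith) hGs hF hε hU hUc hUw
  obtain ⟨N, hN⟩ := eventually_atTop.1 (hzr.eventually_le_const hDpos)
  have hzb : ∀ n, ∫ x in ball (0 : Space) (|R| + 4), ampSqr (z n x) ≤
      Ca * CA * dataSqr G F := fun n => by
    obtain ⟨k, δ, hk⟩ := hzk n
    rw [hk, mul_assoc]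
    exact (havg δ _ _ _ (hU k)).trans (mul_le_mul_of_nonneg_left (hUb k) hCa)
  have hcauchy := solve_cauchy (Cp := Cp) hzs (contDiff_rhs hGs hF).continuous (by positivity)
    (fun p q => hap τ h1τ _ ((hzs p).sub (hzs q)) _ fun _ => contDiff_const) hzc hzr
  have hshift : Tendsto (fun n : ℕ => n + N) atTop atTop := tendsto_add_atTop_nat N
  have hsub : ball (0 : Space) R ⊆ ball (0 : Space) (|R| + 4) :=
    ball_subset_ball (by linarith [le_abs_self R])
  refine ⟨fun n => z (n + N), fun n => hzs _, fun n => ?_, ?_, ?_⟩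
  · exact solve_bound (hzs _) hGs (fun i => (hG i).2) hF hFs hCp h1τ
      (hap τ h1τ _ (hzs _) G hGs) (hzb _) (hN _ (Nat.le_add_left N n))
  · have hmap : Tendsto (fun q : ℕ × ℕ => (q.1 + N, q.2 + N)) atTop atTop := by
      rw [← prod_atTop_atTop_eq]
      exact (hshift.comp tendsto_fst).prodMk (hshift.comp tendsto_snd)
    have h := hcauchy.comp hmap
    simp only [Function.comp_def] at h
    exact h
  · refine squeeze_zero (fun n => integral_nonneg fun x => ampSqr_nonneg _) (fun n => ?_)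
      (hzr.comp hshift)
    simp only [conjReduced_eq M θ τ (hzs _)]
    exact setIntegral_mono_set (integrableOn_ball' (continuous_ampSqr
      ((contDiff_op θ τ _ (hzs (n + N))).sub (contDiff_rhs hGs hF)).continuous) _)
      (Eventually.of_forall fun x => ampSqr_nonneg _) hsub.eventuallyLE

end

end Vale.Agent.P136.Full
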